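import Vale.Agent.P283R.Dp.St

/-!
# P283R, block DP: the row `RK`
-/

open Polynomial

namespace Vale.Agent.P283R.Dp

/-- **RK** -/
theorem rk61 : RK := by
  intro k K L F _ _ _ _ _ _ _ _ _ _ _ com acl
  let _ : Algebra k F := ((algebraMap K F).comp (algebraMap k K)).toAlgebra
  have : IsScalarTower k K F := .of_algebraMap_eq fun _ => rfl
  have : IsScalarTower k L F := .of_algebraMap_eq fun a => (com a).symm
  obtain ⟨α, hα⟩ := Field.exists_primitive_element k L
  have i1 : IsIntegral k α := .of_finite k α
  have i2 : IsIntegral K (algebraMap L F α) := .of_finite K _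
  have dv : minpoly K (algebraMap L F α) ∣ (minpoly k α).map (algebraMap k K) :=
    minpoly.dvd _ _ (by rw [aeval_map_algebraMap, aeval_algebraMap_apply, minpoly.aeval, map_zero])
  have l := integralClosure.mem_lifts_of_monic_of_dvd_map K (minpoly.monic i1) (minpoly.monic i2) dv
  have l' : minpoly K (algebraMap L F α) ∈ lifts (algebraMap k K) :=
    (lifts_iff_coeff_lifts _).2 fun n => by
      obtain ⟨c, hc⟩ := (lifts_iff_coeff_lifts _).1 l n
      exact acl _ (hc ▸ c.2.isAlgebraic)
  obtain ⟨q, q1, q2, q3⟩ := lifts_and_natDegree_eq_and_monic l' (minpoly.monic i2)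
  have z : aeval α q = 0 := (algebraMap L F).injective (by
    rw [← aeval_algebraMap_apply, ← aeval_map_algebraMap K, q1, minpoly.aeval, map_zero])
  rw [← IntermediateField.finrank_top', ← hα, IntermediateField.adjoin.finrank i1]
  exact (natDegree_le_of_dvd (minpoly.dvd k α z) q3.ne_zero).trans
    (q2.le.trans (minpoly.natDegree_le _))

end Vale.Agent.P283R.Dp
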