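import Vale.Agent.P283R.Dp.St

/-!
# P283R, block DP: the state descends along a finite extension of the constants
-/

open Set

noncomputable section

namespace Vale.Agent.P283R.Dp

open Vale.Agent.P287D Vale.Agent.P297Z Cf

namespace G11

variable {k K L F : Type} [Field k] [Algebra ℂ k] [Field K] [Algebra ℂ K] [Field L] [Algebra ℂ L]
  [Field F] [Algebra ℂ F] {d n : ℕ}

theorem eo [Algebra k K] {P : Pl K} {w : Pl k} (l : Lies (algebraMap k K) P w) (z : k) :
    (P.ord (algebraMap k K z) : ℝ) = ee P w * w.ord z := by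
  rw [Lies.ord l z, ee]
  push_cast
  rfl

theorem e1 [Algebra k K] {P : Pl K} {w : Pl k} (l : Lies (algebraMap k K) P w) : 1 ≤ ee P w := by
  have := Lies.e_pos l
  unfold ee
  exact_mod_cast this

theorem ld_up [Algebra K F] [IsScalarTower ℂ K F] (hK : FF K n) (hF : FF F n) {x : Fin n → K}
    (hx : Frm x) {Q : Pl F} {P : Pl K} (l : Lies (algebraMap K F) Q P) :
    1 + kap (fun i => algebraMap K F (x i)) Q = ee Q P * (1 + kap x P) :=
  ((ram n K F (IsScalarTower.toAlgHom ℂ K F) x hK hF hx).2 Q P l).2.2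

/-- the order of a norm is an average -/
theorem avg [Algebra K F] [IsScalarTower ℂ K F] (hK : FF K n) (hF : FF F n) (P : Pl K) :
    ∃ (ι : Type) (_ : Fintype ι) (Q : ι → Pl F), Fintype.card ι = Module.finrank K F ∧
      (∀ i, Lies (algebraMap K F) (Q i) P) ∧
      ∀ φ, φ ≠ 0 → (P.ord (Algebra.norm K φ) : ℝ) = ∑ i, (Q i).ord φ / ee (Q i) P := by
  have := Pb.fin_of_ff hK hF
  have : CharZero K := charZero_of_injective_algebraMap (algebraMap ℂ K).injective
  let E := AlgebraicClosure K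
  let Ω := IntermediateField.normalClosure K F E
  have hL : FF Ω n := Hd.ff_up hK
  let e : (F →ₐ[K] Ω) ≃ (F →ₐ[K] E) := normalClosure.algHomEquiv K F E
  have pr : ∀ φ, algebraMap K Ω (Algebra.norm K φ) = ∏ σ : F →ₐ[K] Ω, σ φ := fun φ => by
    refine (algebraMap Ω E).injective ?_
    rw [← IsScalarTower.algebraMap_apply, Algebra.norm_eq_prod_embeddings, map_prod]
    exact (Fintype.prod_equiv e _ _ fun _ => rfl).symm
  obtain ⟨R, l⟩ := Pb.up_alg hL P
  have E0 : (0 : ℝ) < R.ord (algebraMap K Ω P.t) := by exact_mod_cast l.e_pos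
  have k : ∀ σ : F →ₐ[K] Ω, ∃ Q : Pl F, Lies (algebraMap K F) Q P ∧ ∀ φ,
      (R.ord (σ φ) : ℝ) = R.ord (algebraMap K Ω P.t) * (Q.ord φ / ee Q P) := fun σ => by
    let _ := σ.toRingHom.toAlgebra
    have : IsScalarTower ℂ F Ω := .of_algebraMap_eq fun c => by
      rw [IsScalarTower.algebraMap_apply ℂ K Ω, IsScalarTower.algebraMap_apply ℂ K F]
      exact (σ.commutes _).symm
    obtain ⟨Q, l'⟩ := Pb.down hF hL R
    have l2 : Lies (algebraMap K F) Q P := fun f => (l f).trans (Iff.trans (by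
      rw [← σ.commutes]
      rfl) (l' _).symm)
    refine ⟨Q, l2, fun φ => ?_⟩
    have a : (R.ord (σ φ) : ℝ) = ee R Q * Q.ord φ := eo l' φ
    have b : (R.ord (algebraMap K Ω P.t) : ℝ) = ee R Q * ee Q P := by
      rw [← σ.commutes]
      exact eo l' _
    have := (one_pos.trans_le (e1 l2)).ne'
    rw [a, b]
    field_simp
  choose Q h1 h2 using k
  refine ⟨_, inferInstance, Q, (Fintype.card_congr e).trans (AlgHom.card K F E), h1,
    fun φ φ0 => mul_left_cancel₀ E0.ne' ?_⟩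
  rw [← Int.cast_mul, ← l.ord, pr, R.ord_prod _ fun σ _ => (map_ne_zero σ).2 φ0, Finset.mul_sum]
  push_cast
  exact Finset.sum_congr rfl fun σ _ => h2 σ φ

end G11

open G11 in
/-- **the descent of the state** -/
theorem G11.go {k K L F : Type} [Field k] [Algebra ℂ k] [Field K] [Algebra ℂ K] [Field L]
    [Algebra ℂ L] [Field F] [Algebra ℂ F] [Algebra k K] [Algebra k L] [Algebra K F] [Algebra L F]
    [IsScalarTower ℂ k K] [IsScalarTower ℂ k L] [IsScalarTower ℂ K F] [IsScalarTower ℂ L F]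
    {d n D q q' M : ℕ} {ε ε' : ℝ} {T : Set (Pl K)} {T' : Set (Pl F)} (fk : FF k d) (fK : FF K n)
    (fL : FF L d) (fF : FF F n)
    (com : ∀ a : k, algebraMap L F (algebraMap k L a) = algebraMap K F (algebraMap k K a))
    (ac : Acl k K) (d1 : Module.finrank K F ≤ D) (d2 : Module.finrank k L ≤ D)
    (hT : ∀ Q ∈ T', ∃ P ∈ T, Lies (algebraMap K F) Q P ∧ Q.ord (algebraMap K F P.t) = 1)
    (ε0 : 0 < ε) (ε1 : 0 < ε') (M0 : 0 < M) (go : Go L d n q ε q' M ε' T') :
    Go k d n q ε (q * (M * D.factorial) * ⌈1 / (ε' / D)⌉₊.factorial) (M * D.factorial) (ε' / D)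
      T := by
  intro k₀ ι _ _ _ φ v c μ y x m h hy hx hm h0 sta
  have := Pb.fin_of_ff fK fF
  have := Pb.fin_of_ff fk fL
  have cm : (algebraMap L F).comp (algebraMap k L) = (algebraMap K F).comp (algebraMap k K) :=
    RingHom.ext com
  have aF : ∀ {Q : Pl F} {P : Pl K}, Lies (algebraMap K F) Q P → ∀ (z : K) (r : ℕ),
      aj (fun i => algebraMap K F (x i)) m (algebraMap K F h) (algebraMap K F z) r Q =
        ee Q P * aj x m h z r P := fun l z r => by
    rw [aj, aj, ld, ld, ld_up fK fF hx l, eo l, eo l]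
    ring
  obtain ⟨m₀, h₀, θ, m1, h1, θ0, S, O, Lo⟩ := go k₀ ι ((algebraMap k L).comp φ) v c μ
    (fun i => algebraMap k L (y i)) (fun i => algebraMap K F (x i)) m (algebraMap K F h)
    (ram d k L (IsScalarTower.toAlgHom ℂ k L) y fk fL hy).1
    (ram n K F (IsScalarTower.toAlgHom ℂ K F) x fK fF hx).1 hm ((map_ne_zero _).2 h0)
    fun j Q hQ => by
      simp only [RingHom.comp_apply, com] at hQ ⊢
      refine ⟨?_, fun a => ?_⟩
      · obtain ⟨P, l⟩ := Pb.down fK fF Q
        have := (sta j P fun a ha => (l _).2 (hQ a ha)).1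
        rw [aF l]
        exact this.trans (le_mul_of_one_le_left (ε0.le.trans this) (e1 l))
      · obtain ⟨P, p, l, e⟩ := hT Q a
        rw [aF l, ee, e, Int.cast_one, one_mul]
        exact (sta j P fun a ha => (l _).2 (hQ a ha)).2 p
  set N := Module.finrank K F with hN
  have N0 : 0 < N := Module.finrank_pos
  have N1 : (0 : ℝ) < N := Nat.cast_pos.2 N0
  have D1 : (0 : ℝ) < D := Nat.cast_pos.2 (N0.trans_le d1)
  obtain ⟨s, hs⟩ := Nat.dvd_factorial N0 d1
  have h2 : algebraMap L F h₀ ≠ 0 := (map_ne_zero _).2 h1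
  obtain ⟨H, hH⟩ : Algebra.norm K (algebraMap L F h₀) ∈ range (algebraMap k K) := by
    let _ := ((algebraMap K F).comp (algebraMap k K)).toAlgebra
    have : IsScalarTower k K F := .of_algebraMap_eq fun _ => rfl
    have : IsScalarTower k L F := .of_algebraMap_eq fun a => (com a).symm
    exact ac _ (Algebra.isIntegral_norm K
      ((Algebra.IsIntegral.isIntegral (R := k) h₀).algebraMap (B := F))).isAlgebraic
  have H0 : H ≠ 0 := fun z => Algebra.norm_ne_zero_iff.2 h2 (by rw [← hH, z, map_zero])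
  have n0 := Algebra.norm_ne_zero_iff (R := K).2 θ0
  have m2 : (0 : ℝ) < m₀ := Nat.cast_pos.2 m1
  have M1 : (0 : ℝ) < M := Nat.cast_pos.2 M0
  have s0 : (s : ℝ) ≠ 0 := Nat.cast_ne_zero.2 fun z => D.factorial_ne_zero (by rw [hs, z, mul_zero])
  have idn : ∀ P : Pl K, (P.ord h : ℝ) / m = P.ord (algebraMap k K H) / (m₀ * N : ℕ) +
      P.ord (Algebra.norm K θ ^ s) / (M * D.factorial : ℕ) := fun P => by
    obtain ⟨κ, _, Q, cd, l, o⟩ := avg fK fF P
    have e : ∑ _i : κ, (P.ord h : ℝ) / m =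
        ∑ i, ((Q i).ord (algebraMap L F h₀) / ee (Q i) P / m₀ + (Q i).ord θ / ee (Q i) P / M) :=
      Finset.sum_congr rfl fun i _ => by
        have a := O (Q i)
        have := (one_pos.trans_le (e1 (l i))).ne'
        rw [eo (l i), mul_div_assoc] at a
        rw [div_right_comm, div_right_comm _ (ee _ _), ← add_div, ← a, mul_div_cancel_left₀ _ this]
    rw [Finset.sum_const, Finset.card_univ, cd, nsmul_eq_mul, ← hN, Finset.sum_add_distrib,
      ← Finset.sum_div, ← Finset.sum_div, ← o _ h2, ← o _ θ0] at e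
    rw [hH, Pl.ord_pow, hs]
    refine mul_left_cancel₀ N1.ne' (e.trans ?_)
    push_cast
    field_simp
  have av : ∀ (P : Pl K) (w : Pl k), Lies (algebraMap k K) P w → ∀ a : ℝ,
      ((∀ w', Lies (algebraMap k L) w' w →
        a * ee w' w ≤ ld (fun i => algebraMap k L (y i)) m₀ h₀ w') → a ≤ ld y (m₀ * N) H w) ∧
      ee P w * ld y (m₀ * N) H w ≤ ld x m h P := fun P w lw a => by
    obtain ⟨κ, _, Q, cd, l, o⟩ := avg fK fF P
    have c5 : ∀ i, Lies ((algebraMap L F).comp (algebraMap k L)) (Q i) w :=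
      fun i => cm ▸ (l i).comp lw
    have ex : ∀ i, ∃ w', Lies (algebraMap L F) (Q i) w' := fun i =>
      (fF.ok (IsScalarTower.toAlgHom ℂ L F) (Q i)).resolve_left fun t => (c5 i).not_trv (t.comp _)
    choose w' c1 using ex
    have c3 := fun i => (c1 i).of_comp (c5 i)
    have pe : ∀ i, ee (Q i) (w' i) * ee (w' i) w = ee (Q i) P * ee P w := fun i =>
      (eo (c1 i) (algebraMap k L w.t)).symm.trans ((congrArg (fun z => ((Q i).ord z : ℝ))
        (com w.t)).trans (eo (l i) _))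
    have p1 := fun i => one_pos.trans_le (e1 (c1 i))
    have p2 := fun i => one_pos.trans_le (e1 (c3 i))
    have p3 := fun i => one_pos.trans_le (e1 (l i))
    have p4 := one_pos.trans_le (e1 lw)
    have key : N * ld y (m₀ * N) H w =
        ∑ i, ld (fun i => algebraMap k L (y i)) m₀ h₀ (w' i) / ee (w' i) w := by
      have e := o _ h2
      rw [← hH, eo lw] at e
      have e2 : ∀ i, ld (fun i => algebraMap k L (y i)) m₀ h₀ (w' i) / ee (w' i) w =
          1 + kap y w - (Q i).ord (algebraMap L F h₀) / ee (Q i) P / (ee P w * m₀) := fun i => by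
        rw [ld, ld_up fk fL hy (c3 i), eo (c1 i), div_div, ← mul_assoc, ← pe]
        have := (p1 i).ne'
        have := (p2 i).ne'
        field_simp
      rw [Finset.sum_congr rfl fun i _ => e2 i, Finset.sum_sub_distrib, ← Finset.sum_div, ← e,
        Finset.sum_const, Finset.card_univ, cd, nsmul_eq_mul, ← hN, ld]
      push_cast
      field_simp
    have cs : ∀ b : ℝ, ∑ _i : κ, b = N * b := fun b => by
      rw [Finset.sum_const, Finset.card_univ, cd, nsmul_eq_mul]
    refine ⟨fun ha => le_of_mul_le_mul_left ?_ N1, ?_⟩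
    · rw [key, ← cs]
      exact Finset.sum_le_sum fun i _ => (le_div_iff₀ (p2 i)).2 (ha _ (c3 i))
    · rw [mul_comm, ← le_div_iff₀ p4]
      refine le_of_mul_le_mul_left ?_ N1
      rw [key, ← cs]
      refine Finset.sum_le_sum fun i _ => ?_
      have b := Lo (Q i) (w' i) (c1 i)
      have b2 := aF (l i) 1 1
      simp only [aj, map_one, Pl.ord_one, Int.cast_zero, zero_div, sub_zero] at b2
      rw [b2] at b
      rw [div_le_div_iff₀ (p2 i) p4]
      refine le_of_mul_le_mul_left ?_ (mul_pos (p1 i) (p3 i))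
      have b3 := mul_le_mul_of_nonneg_left b (mul_pos (p3 i) p4).le
      have b4 := pe i
      calc _ = ee (Q i) P * ee P w * (ee (Q i) (w' i) *
            ld (fun i => algebraMap k L (y i)) m₀ h₀ (w' i)) := by ring
        _ ≤ _ := b3
        _ = _ := by rw [← b4]; ring
  refine ⟨m₀ * N, H, Algebra.norm K θ ^ s, Nat.mul_pos m1 N0, H0, pow_ne_zero _ n0,
    fun j w hw => ?_, idn, fun P w l => (av P w l 0).2⟩
  have ε2 : 0 < ε' / D := div_pos ε1 D1
  have u1 : ε' / D ≤ aj y (m₀ * N) H (φ (c j)) (μ j) w := by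
    obtain ⟨P, l⟩ := Pb.up_alg fK w
    refine le_sub_iff_add_le.2 ((av P w l _).1 fun w' l' => ?_)
    have a := (S j w' fun a ha => (l' _).1 (hw a ha)).1
    have b : ee w' w ≤ D := by
      simp only [ee]
      exact_mod_cast (Ds.e_le l').trans (Int.ofNat_le.2 d2)
    have b2 := mul_le_mul_of_nonneg_left b ε2.le
    rw [div_mul_cancel₀ _ D1.ne'] at b2
    rw [aj, RingHom.comp_apply, eo l', mul_div_assoc] at a
    linarith
  refine ⟨u1, fun ⟨P, hP, l⟩ => ?_⟩
  obtain ⟨u2, z, u3⟩ := (sta j P fun a ha => (l _).1 (hw a ha)).2 hP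
  have u4 : ee P w * aj y (m₀ * N) H (φ (c j)) (μ j) w ≤ 1 := by
    have := (av P w l 0).2
    simp only [aj, RingHom.comp_apply, eo l, mul_sub, mul_div_assoc] at u2 ⊢
    linarith
  have u5 := e1 l
  refine ⟨by nlinarith, ?_⟩
  obtain ⟨f, hf⟩ : ∃ f : ℕ, ee P w = f :=
    ⟨(P.ord (algebraMap k K w.t)).toNat, by
      rw [ee, ← Int.cast_natCast, Int.toNat_of_nonneg (Lies.e_pos l).le]⟩
  have u6 : f ≤ ⌈1 / (ε' / D)⌉₊ := by
    have : (f : ℝ) ≤ 1 / (ε' / D) := by
      rw [le_div_iff₀ ε2, ← hf]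
      nlinarith
    exact_mod_cast this.trans (Nat.le_ceil _)
  obtain ⟨f', hf'⟩ := Nat.dvd_factorial (show 0 < f by exact_mod_cast hf ▸ one_pos.trans_le u5) u6
  obtain ⟨z1, u7⟩ := Stp.kap_int x P
  obtain ⟨z2, u8⟩ := Stp.kap_int y w
  refine ⟨f' * (q * (M * D.factorial : ℕ) * (f * (1 + z2) - (1 + z1)) + (M * D.factorial : ℕ) * z +
    q * P.ord (Algebra.norm K θ ^ s)), ?_⟩
  have u9 : ((M * D.factorial : ℕ) : ℝ) ≠ 0 :=
    Nat.cast_ne_zero.2 (Nat.mul_pos M0 D.factorial_pos).ne'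
  simp only [aj, ld, RingHom.comp_apply, idn, eo l, hf, u7, mul_div_assoc] at u3
  rw [hf', aj, ld, u8]
  generalize M * D.factorial = M' at *
  push_cast
  rw [← u3]
  generalize (w.ord (φ (c j)) : ℝ) / μ j = X
  push_cast
  generalize (w.ord H : ℝ) / (m₀ * N) = Y
  field_simp
  ring

/-- **TOG** from the towers -/
theorem tog_of (tow : TOW) : TOG := fun D r q ε q0 ε0 => by
  obtain ⟨q', M, ε', -, M0, ε1, H⟩ := tow r q ε q0 ε0
  refine ⟨q * (M * (D + 1).factorial) * ⌈1 / (ε' / (D + 1 : ℕ))⌉₊.factorial,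
    M * (D + 1).factorial, ε' / (D + 1 : ℕ), by positivity, by positivity, by positivity, ?_⟩
  rintro k K _ _ _ _ _ _ d T hd ⟨fk, fK, ac, L, F, _, _, _, _, _, _, _, _, _, _, T', com, -, -,
    d2, d1, hT, tw⟩
  obtain ⟨fL, fF, go⟩ := H L F d T' hd tw
  exact ⟨fk, fK, G11.go fk fK fL fF com ac (d1.trans D.le_succ) (d2.trans D.le_succ) hT ε0 ε1 M0 go⟩

/-- **GOD** -/
theorem god11 : GOD := fun _ => tog_of

/-- **TOG** -/
theorem tog11 : TOG := tog_of Cf.tow

end Vale.Agent.P283R.Dp
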