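import Vale.Agent.P283R.Dp.St
import Vale.Agent.P283R.Dp.Dwg64

/-!
# P283R, block DP: the row `DWG`
-/

namespace Vale.Agent.P283R.Dp

/-- **DWG** -/
theorem dwgr64 : DWG := by
  intro tog _ _ D r q ε q0 ε0
  obtain ⟨q', M, ε', q1, M0, ε1, H⟩ := tog D r q ε q0 ε0
  refine ⟨_, M, ε', rng64 q1, M0, ε1, fun X Y g p hg hp d ω η B hd hdim hω hη hB hq tr tw => ?_⟩
  let _ := p.toAlgebra
  have : IsScalarTower ℂ Y.K X.K := .of_algebraMap_eq fun c => (hp.cst hg.1 c).symm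
  obtain ⟨hk, -, go⟩ := H Y.K X.K d (Cf.Pri X) hd tw
  exact dwg64 ε0 q1 M0 ε1 X Y g p hg hp d ω η B hd hdim hω hη hB hq tr hk go

end Vale.Agent.P283R.Dp
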