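import Vale.Agent.P283R.Ft.Glu35
import Vale.Agent.P283R.Ft.Amp9
import Vale.Agent.P283R.Ft.Glb90
import Vale.Agent.P283R.Ft.Ber11

/-!
# P283R, block DP: the descent of the Fano type from the pair on the base
-/

open Set CategoryTheory AlgebraicGeometry

noncomputable section

namespace Vale.Agent.P283R.Dp

open Vale.Agent.P287D Vale.Agent.P297Z
open Vale.Agent.P289 (Pt DForm dimension toRat)
open Vale.Agent.P283M Vale.Agent.P283M.Stm Vale.Agent.P283M.Stm.Var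
open Vale.Agent.P283M.Br (GenAt Bpf Dom har plc frm ffd pl_of reg_gen)
open Vale.Agent.P283R.Et (Pe)
open Ft Ft.G35

theorem ftg {X Y Z : Var} {g : X.X ⟶ Y.X} {h : Y.X ⟶ Z.X} {p : Y.K →+* X.K} {D d : ℕ}
    {ω : DForm ℂ X.K D} {η : DForm ℂ Y.K d} (hg : Contraction g) (hp : Pe g p)
    (hh : Surjective h) (d1 : 1 ≤ D) (hdim : dimension X.str = D) (hω : ω.Nonzero)
    (dw : ∀ (q : ℕ) (ε : ℝ) (B : X.QDiv), 0 < q → 0 < ε → Pair (ε ≤ ·) ⊤ ω B →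
      (∀ E, ∃ z : ℤ, q * B E = z) → Cf.Triv g (logCan ω B) → ∃ (ε' : ℝ) (Δ : Y.QDiv), 0 < ε' ∧
        Pair (ε' ≤ ·) ⊤ η Δ ∧ Cf.Pull g p (logCan ω B) (logCan η Δ))
    (ft : FanoType (g ≫ h) ω) : FanoType h η := by
  classical
  obtain ⟨C, hC, hA⟩ := ft
  obtain ⟨tY, aY⟩ := Gl.amz Y
  obtain ⟨tZ, aZ⟩ := Gl.amz Z
  obtain ⟨q, hq⟩ := Cf.Fto.exists_pe h
  have hK := ffd X _ hdim
  obtain ⟨j, -, fr⟩ := frm X _ hK ω hω
  have fin : {E | (-logCan ω C) E ≠ 0}.Finite :=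
    ((Cf.Dw.form_fin' d1 hK fr).union C.support.finite_toSet).subset fun E e => by
      by_contra n
      simp only [mem_union, mem_ofPred_eq, Finset.mem_coe, Finsupp.mem_support_iff, not_or,
        not_not] at n
      exact e (by simp [logCan, n.1, n.2])
  obtain ⟨N, a, b, t, N2, a0, ht, eq⟩ := glb90 X Z (g ≫ h) (p.comp q) _ (tY.image p) tZ
    (pe_comp hp hq) fin hA
    (fun x _ => let ⟨σ, s⟩ := aY.1 (Pt.map g x) trivial; ⟨_, gen_pull hp s⟩) aZ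
  obtain ⟨φ, C', ε, k, φ0, ε0, k0, hC', int, co⟩ := ber11 X _ N ω C t d1 hdim hω hC ht N2
  have N0 : (N : ℚ) ≠ 0 := Nat.cast_ne_zero.2 (by omega)
  have p0 : ∀ {c : Y.K}, c ≠ 0 → p c ≠ 0 := fun k => (map_ne_zero p).2 k
  have q0 : ∀ {c : Z.K}, c ≠ 0 → q c ≠ 0 := fun k => (map_ne_zero q).2 k
  have key : ∀ (E : X.PrimeDiv) σ ρ, GenAt tY σ (E.1.map g) → GenAt tZ ρ ((E.1.map g).map h) →
      N * logCan ω C' E = ord φ E + a * ord (p σ) E - b * ord (p (q ρ)) E := fun E σ ρ s u => by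
    obtain ⟨τ, v⟩ := ht E.1 trivial
    have e1 := (eq E.1 τ (p σ) ρ v (gen_pull hp s) u).2 E specializes_rfl
    have e2 := co E τ v
    rw [RingHom.comp_apply,
      odiv (pow_ne_zero _ (p0 (q0 u.2.1))) (mul_ne_zero v.2.1 (pow_ne_zero _ (p0 s.2.1))),
      omul v.2.1 (pow_ne_zero _ (p0 s.2.1)), opow, opow, Pi.neg_apply, logCan] at e1
    rw [odiv φ0 v.2.1] at e2
    rw [logCan, e2]
    field_simp
    linarith
  have sp : ∀ {E : X.PrimeDiv} {x : Pt X.X}, E.1 ⤳ x → E.1.map g ⤳ x.map g := fun s =>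
    s.map g.continuous
  have sp' : ∀ {y y' : Pt Y.X}, y ⤳ y' → y.map h ⤳ y'.map h := fun s => s.map h.continuous
  have triv : Cf.Triv g (logCan ω C') := fun y => by
    obtain ⟨σ, s⟩ := aY.1 y trivial
    obtain ⟨ρ, u⟩ := aZ.1 (y.map h) trivial
    have n1 := pow_ne_zero a (p0 s.2.1)
    have n2 := pow_ne_zero b (p0 (q0 u.2.1))
    refine ⟨N, φ * p σ ^ a / p (q ρ) ^ b, by omega, ?_⟩
    rintro x rfl
    refine ⟨div_ne_zero (mul_ne_zero φ0 n1) n2, fun E s' => ?_⟩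
    rw [key E σ ρ (gen_gen s (sp s')) (gen_gen u (sp' (sp s'))), odiv (mul_ne_zero φ0 n1) n2,
      omul φ0 n1, opow, opow]
  obtain ⟨ε', Δ, ε1, hΔ, M, θ, M0, θ0, pu⟩ := dw k ε C' k0 ε0 hC' int triv
  have k2 : ∀ (E : X.PrimeDiv) m c, LocalEq (logCan η Δ) m c (E.1.map g) →
      (m : ℚ) * ord θ E + M * ord (p c) E = M * m * logCan ω C' E := fun E m c e => by
    have := (pu E.1 m c e).2 E specializes_rfl
    rwa [omul (pow_ne_zero _ θ0) (pow_ne_zero _ (p0 e.1)), opow, opow, Nat.cast_mul] at this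
  have y₀ : Pt Y.X := genericPoint Y.X
  obtain ⟨m₀, c₀, m0, e₀⟩ := hΔ.2.1 y₀ trivial
  obtain ⟨σ₀, s₀⟩ := aY.1 y₀ trivial
  obtain ⟨ρ₀, u₀⟩ := aZ.1 (y₀.map h) trivial
  have n0 := pow_ne_zero m₀ (div_ne_zero (pow_ne_zero N θ0) (pow_ne_zero M φ0))
  have n1 := div_ne_zero (pow_ne_zero (M * m₀) (div_ne_zero (pow_ne_zero a s₀.2.1)
    (pow_ne_zero b (q0 u₀.2.1)))) (pow_ne_zero (M * N) e₀.1)
  obtain ⟨c₁, hc⟩ := down hg hp y₀ (u := (θ ^ N / φ ^ M) ^ m₀ /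
      p ((σ₀ ^ a / q ρ₀ ^ b) ^ (M * m₀) / c₀ ^ (M * N))) (by
    rintro x rfl
    refine har X _ _ fun E s' => Int.cast_nonneg_iff (R := ℚ) |>.1 (le_of_eq ?_)
    have e1 := key E σ₀ ρ₀ (gen_gen s₀ (sp s')) (gen_gen u₀ (sp' (sp s')))
    have e2 := k2 E m₀ c₀ (Cf.Dw.gen e₀ (sp s'))
    rw [odiv n0 (p0 n1), opow, odiv (pow_ne_zero N θ0) (pow_ne_zero M φ0), opow, opow, map_div₀,
      map_pow, map_pow, map_div₀, map_pow, map_pow,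
      odiv (pow_ne_zero _ (div_ne_zero (pow_ne_zero a (p0 s₀.2.1))
        (pow_ne_zero b (p0 (q0 u₀.2.1))))) (pow_ne_zero _ (p0 e₀.1)), opow, opow,
      odiv (pow_ne_zero a (p0 s₀.2.1)) (pow_ne_zero b (p0 (q0 u₀.2.1))), opow, opow]
    push_cast
    linear_combination (-N : ℚ) * e2 - M * m₀ * e1)
  obtain ⟨θ₁, h1⟩ : ∃ θ₁, p θ₁ = (θ ^ N / φ ^ M) ^ m₀ :=
    ⟨c₁ * ((σ₀ ^ a / q ρ₀ ^ b) ^ (M * m₀) / c₀ ^ (M * N)), by
      rw [map_mul, hc, div_mul_cancel₀ _ (p0 n1)]⟩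
  have t0 : θ₁ ≠ 0 := fun e => n0 (by rw [← h1, e, map_zero])
  refine ⟨Δ, ⟨hΔ.1, hΔ.2.1, fun Mo E a m c m0 e => ε1.trans_le (hΔ.2.2 Mo E a m c m0 e)⟩,
    amp9 Y Z h q tY tZ _ (m₀ * M * N) (m₀ * M * a) (m₀ * M * b) θ₁ hq aY aZ.1
      (Nat.mul_pos (Nat.mul_pos m0 M0) (by omega)) (Nat.mul_pos (Nat.mul_pos m0 M0) a0)
      fun y σ ρ s u => ?_⟩
  have n2 := pow_ne_zero (m₀ * M * b) (q0 u.2.1)
  have n3 := pow_ne_zero (m₀ * M * a) s.2.1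
  refine ⟨div_ne_zero (mul_ne_zero t0 n2) n3, fun F s' => ?_⟩
  obtain ⟨E, e, e0, hE, o⟩ := ovr hg hp F
  obtain ⟨m, c, m1, ec⟩ := hΔ.2.1 F.1 trivial
  have e1 := key E σ ρ (hE ▸ gen_gen s s') (hE ▸ gen_gen u (sp' s'))
  have e2 := k2 E m c (hE ▸ ec)
  have e3 := ec.2 F specializes_rfl
  have e4 := o θ₁
  rw [h1, opow, odiv (pow_ne_zero N θ0) (pow_ne_zero M φ0), opow, opow] at e4
  rw [o, o] at e1
  rw [o, e3] at e2
  rw [odiv (mul_ne_zero t0 n2) n3, omul t0 n2, opow, opow, Pi.neg_apply]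
  have m' : (m : ℚ) ≠ 0 := Nat.cast_ne_zero.2 m1.ne'
  have e5 : (ord θ E : ℚ) + M * (e * logCan η Δ F) = M * logCan ω C' E :=
    mul_left_cancel₀ m' (by linear_combination e2)
  refine mul_left_cancel₀ e0.ne' ?_
  push_cast
  linear_combination (-1 : ℚ) * e4 + m₀ * N * e5 + m₀ * M * e1

end Vale.Agent.P283R.Dp
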