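import Vale.Agent.P283R.Dp.St
import Vale.Agent.P283R.Dp.Ftg35

/-!
# P283R, block DP: the base is of Fano type (row FTG)
-/

namespace Vale.Agent.P283R.Dp

theorem ftg35 : FTG := fun dwn X Y _ g _ p D d r ω η hg hp hh hd hdim hω hη tw ft =>
  ftg hg hp hh (hd.trans (Nat.le_add_right d r)) hdim hω (fun q ε B q0 ε0 hB int triv =>
    let ⟨_, _, ε', _, _, ε1, dw⟩ := dwn D r q ε q0 ε0
    let ⟨Δ, hΔ, _, pu, _⟩ := dw X Y g p hg hp d ω η B hd hdim hω hη hB int triv tw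
    ⟨ε', Δ, ε1, hΔ, pu⟩) ft

end Vale.Agent.P283R.Dp
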