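import Vale.Agent.P283R.Dp.St

/-!
# P283R, block DP: towers after an étale base change over a class
-/

open CategoryTheory AlgebraicGeometry

namespace Vale.Agent.P283R.Sl

open Var

variable {X Y W : Var} {g : X.X ⟶ Y.X} {h : Y.X ⟶ W.X}

/-- the fields of a geometric tower -/
theorem GeoTower.gt7 (R : Dp.REL) (F : Dp.FRO) {J : ℕ} (c : GeoTower J g) (s : Surjective h)
    {d e : ℕ} {ω : X.Form d} (hd : dimension X.str = d) (he : dimension Y.str = e) (e1 : 1 ≤ e)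
    (a : ω.Nonzero) (ft : FanoType (g ≫ h) ω) {p : Y.K →+* X.K}
    (hp : Et.Pe (W := X.o) (Z := Y.o) g p) :
    ∃ r, d = e + r ∧ (letI := p.toAlgebra; Dp.Gt J e r Y.K X.K (Cf.Pri X.o)) := by
  obtain ⟨c, X', Y', g', π, ι, p₀, et, ov, bc, pe, sp, t⟩ := c
  have d1 := e1.trans (c.dim_le hd he)
  have b : Eb.Bc (X := X.o) (Z := Y.o) (Y := X'.o) (W := Y'.o) g ι g' π p₀ :=
    ⟨c, et, ov, bc.1, MorphismProperty.of_isPullback bc.1.flip et, bc.2, pe⟩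
  obtain ⟨q, hq⟩ := Et.exists_pe (W := Y'.o) (Z := Y.o) ι
  have hd' : dimension X'.str = d := Eb.dim _ _ _ _ b.ep d hd
  have he' : dimension Y'.str = e := Eb.dim Y.o Y'.o ι q ⟨et, ov, hq⟩ e he
  obtain ⟨m, η, hm, η0⟩ := exists_form X'
  obtain rfl : d = m := Nat.cast_injective (hd'.symm.trans hm)
  have f1 : FanoType g ω := (fanoType_iff g ω).2
    (R X.o Y.o W.o g h d ω c.2.2.1 s d1 hd a ((fanoType_iff _ ω).1 ft))
  obtain ⟨p', hp', tw⟩ := t.tower Ft.fta Y' (𝟙 _) d e η inferInstance hm he' e1 η0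
    ((Category.comp_id g').symm ▸ fan_up b d1 hd a η0 f1)
  obtain ⟨r, rfl, T⟩ := Cf.adp' g' t.ctr.1 p' hp' hm he' tw
  exact ⟨r, rfl, F _ _ _ _ _ _ _ _ _ b p p' J e r hp hp' sp hd he T⟩

variable {C : ∀ (d : ℕ) (X Z : Var), (X.X ⟶ Z.X) → X.Form d → X.QDiv → Pt Z.X → Prop}

/-- the wrapper -/
theorem on_gt7 (hD : Dp.DWN) (J : ℕ → ℕ) (h : On C) : On fun d X Z f ω B z =>
    ∃ (e r : ℕ) (Y : Var) (g : X.X ⟶ Y.X) (h : Y.X ⟶ Z.X) (η : Y.Form e) (p : Y.K →+* X.K),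
      1 ≤ e ∧ d = e + r ∧ dimension Y.str = e ∧ η.Nonzero ∧ g ≫ h = f ∧ Contraction g ∧
      Contraction h ∧ Et.Pe (W := X.o) (Z := Y.o) g p ∧
      (letI := p.toAlgebra; Dp.Gt (J d) e r Y.K X.K (Cf.Pri X.o)) ∧ TrivialOver g ω B ∧
      ∀ Δ : Y.QDiv, Pair (0 < ·) (all Y.X) η Δ →
        Cf.Pull (X := X.o) (Y := Y.o) g p (logCan ω B) (logCan η Δ) → C e Y Z h η Δ z := by
  intro d hd ε hε R hR
  have hq : 0 < ∏ a ∈ R, a.den := Finset.prod_pos fun a _ => a.den_pos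
  choose R' M ε' a1 a2 a3 H using fun r => hD (J d) r _ ε hq hε
  choose n hn K using fun e r => h (e + 1) (Nat.le_add_left _ _) (ε' r) (a3 r) (R' r) (a1 r)
  have N0 : 0 < ∏ x ∈ Finset.range d ×ˢ Finset.range d, M x.2 * n x.1 x.2 :=
    Finset.prod_pos fun x _ => Nat.mul_pos (a2 _) (hn _ _)
  refine ⟨_, N0, fun X Z f ω B z a b c i s t u => ?_⟩
  obtain ⟨e, r, Y, g, h', η, p, b1, rfl, b2, b3, rfl, b5, b6, hp, T, tr, u⟩ := u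
  obtain ⟨e, rfl⟩ : ∃ k, e = k + 1 := ⟨e - 1, (Nat.sub_add_cancel b1).symm⟩
  obtain ⟨Δ, c1, c2, c3, c4⟩ := H r X.o Y.o g p b5 hp (e + 1) ω η B b1 a b b3
    ((pair_iff _ _ ω B).1 c) (fun E => by
      by_cases z : B E = 0
      · exact ⟨0, (congrArg (_ * ·) z).trans (by simp)⟩
      · obtain ⟨k, hk⟩ := Br.den R (i E z) (hR _ (i E z)).1
        exact ⟨k, hk⟩) tr T
  have c1' := (pair_iff _ _ η Δ).2 c1
  have dv : M r * n e r ∣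
      ∏ x ∈ Finset.range (e + 1 + r) ×ˢ Finset.range (e + 1 + r), M x.2 * n x.1 x.2 :=
    Finset.dvd_prod_of_mem (fun x : ℕ × ℕ => M x.2 * n x.1 x.2) (a := (e, r))
      (by simp only [Finset.mem_product, Finset.mem_range]; omega)
  refine (has_iff _ ω B _ z).2 (c4 Z.o h' z _ N0 ((dvd_mul_right _ _).trans dv)
    ((has_iff h' η Δ _ z).1 ((K e r Y Z h' η Δ z b2 b3 c1' c2 b6 t
      (u Δ ?_ c3)).of_dvd ((dvd_mul_left _ _).trans dv))))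
  exact ⟨c1'.1, c1'.2.1, fun W E k m φ m0 l => (a3 r).trans_le (c1'.2.2 W E k m φ m0 l)⟩

/-- geometric towers over a class -/
theorem OnN.geo7' (hD : Dp.DWN) (hF : Dp.FTD) (R : Dp.REL) (F : Dp.FRO) (J : ℕ → ℕ) (h : OnN C) :
    OnN fun d X Z f ω B z => ∃ (e : ℕ) (T : Var) (a : X.X ⟶ T.X) (h : T.X ⟶ Z.X) (θ : T.Form e),
      dimension T.str = e ∧ 1 ≤ e ∧ θ.Nonzero ∧ a ≫ h = f ∧ GeoTower (J d) a ∧
      TrivialOver a ω B ∧ ∀ Δ, C e T Z h θ Δ z := by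
  intro d hd ε hε S hS
  obtain ⟨n, hn, H⟩ := on_gt7 hD J h d hd ε hε S hS
  refine ⟨n, hn, fun X Z f ω B z a b c i s t u => H X Z f ω B z a b c i s t ?_⟩
  obtain ⟨ft, v, e, Y, g, k, η, b2, b1, b3, rfl, b5, b7, b8⟩ := u
  have b6 := b5.1.of_comp s
  have := b5.1.2.2.1
  obtain ⟨p, hp⟩ := Cf.Fto.exists_pe (X := X.o) (Y := Y.o) g
  obtain ⟨r, rfl, T⟩ := b5.gt7 R F b6.2.2.1 a b2 b1 b ft hp
  exact ⟨e, r, Y, g, k, η, p, b1, rfl, b2, b3, rfl, b5.1, b6, hp, T, b7, fun Δ c7 c8 =>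
    ⟨(fanoType_iff k η).2 (hF X.o Y.o Z.o g k p _ e r ω η b5.1 hp b6.2.2.1 b1 a b b3 T
      ((fanoType_iff _ ω).1 ft)),
      (nefOver_iff k _).2 (Cf.nef X.o Y.o g p b5.1 hp Z.o k _ _
        (Eb.logCan_fin (X := Y.o) b1 b2 b3 Δ) (fun y => c7.2.1 y trivial) c8
        ((nefOver_iff _ _).1 v)), b8 Δ⟩⟩

/-- the same for classes which do not depend on the boundary -/
theorem OnN.geo7 (hD : Dp.DWN) (hF : Dp.FTD) (R : Dp.REL) (F : Dp.FRO) (J : ℕ → ℕ)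
    {C : ∀ (d : ℕ) (X Z : Var), (X.X ⟶ Z.X) → X.Form d → Pt Z.X → Prop}
    (h : OnN fun d X Z f ω _ z => C d X Z f ω z) :
    OnN fun d X Z f ω B z => ∃ (e : ℕ) (T : Var) (a : X.X ⟶ T.X) (h : T.X ⟶ Z.X) (θ : T.Form e),
      dimension T.str = e ∧ 1 ≤ e ∧ θ.Nonzero ∧ a ≫ h = f ∧ GeoTower (J d) a ∧
      TrivialOver a ω B ∧ C e T Z h θ z :=
  (h.geo7' hD hF R F J).mono fun _ _ _ _ _ _ _ ⟨e, Y, g, h, η, b1, b2, b3, b4, b5, b6, u⟩ =>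
    ⟨e, Y, g, h, η, b1, b2, b3, b4, b5, b6, fun _ => u⟩

/-- geometric towers over a germ -/
theorem onN_geo7 (hD : Dp.DWN) (R : Dp.REL) (F : Dp.FRO) (J : ℕ → ℕ)
    {S : ℕ → ∀ Z : Var, Pt Z.X → Prop}
    (h : On fun d _ Z f ω B z => Crepant f ω B z ∧ S d Z z) : OnN fun d _ Z f ω B z =>
    ∃ e : ℕ, dimension Z.str = e ∧ 1 ≤ e ∧ GeoTower (J d) f ∧ TrivialOver f ω B ∧ S e Z z := by
  intro d hd ε hε T hT
  obtain ⟨n, hn, H⟩ := on_gt7 hD J h d hd ε hε T hT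
  refine ⟨n, hn, fun X Z f ω B z a b c i s t ⟨ft, _, e, b1, b2, b3, b4, b5⟩ =>
    H X Z f ω B z a b c i s t ?_⟩
  obtain ⟨m, η, h1, h2⟩ := exists_form Z
  obtain rfl : e = m := Nat.cast_injective (b1.symm.trans h1)
  have := s.2.2.1
  obtain ⟨p, hp⟩ := Cf.Fto.exists_pe (X := X.o) (Y := Z.o) f
  obtain ⟨r, rfl, G⟩ := b3.gt7 (h := 𝟙 _) R F inferInstance a b1 b2 b
    ((Category.comp_id f).symm ▸ ft) hp
  exact ⟨e, r, Z, f, 𝟙 _, η, p, b2, rfl, b1, h2, Category.comp_id _, s, Br.ctr_id (X := Z.o), hp,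
    G, b4, fun Δ l _ =>
      ⟨⟨⟨_, Br.pb_id (X := Z.o)⟩, Br.loc_id (X := Z.o) ((pair_iff _ _ η Δ).1 l) z⟩, b5⟩⟩

/-- geometric towers over quotients of complete intersections and over mild points -/
theorem onN_germG7 (hD : Dp.DWN) (R : Dp.REL) (F : Dp.FRO) (J : ℕ → ℕ) :
    OnN fun d _ Z f ω B z =>
    ∃ e : ℕ, dimension Z.str = e ∧ 1 ≤ e ∧ GeoTower (J d) f ∧ TrivialOver f ω B ∧
      (LciqOr (e = d ∧ SameCoeff f B.coeff 0) Z z ∨ 3 ≤ e ∧ MildCover e (e - 3) Z z) :=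
  ((onN_geo7 hD R F J (S := fun e W w => LciqReg W w ∨ 3 ≤ e ∧ MildCover e (e - 3) W w)
    ((Pu.on.or on_cdv).mono fun _ _ _ _ _ _ _ u =>
      u.2.imp (fun v => ⟨u.1, v⟩) fun v => ⟨v.1, u.1, v.2⟩)).or onN_lci0).mono
    fun _ _ _ _ _ _ _ ⟨e, a, b, c, t, u⟩ => by
      rcases u with u | u
      · rcases u.elim with v | ⟨⟨rfl, v⟩, w⟩
        · exact .inl ⟨e, a, b, c, t, .inl v⟩
        · exact .inr ⟨a, t, v, w⟩
      · exact .inl ⟨e, a, b, c, t, .inr u⟩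

/-- the union of the two, after an étale base change -/
theorem literalG_of7 (hD : Dp.DWN) (hF : Dp.FTD) (R₀ : Dp.REL) (F : Dp.FRO) (J : ℕ → ℕ)
    {C : ∀ (d : ℕ) (X Z : Var), (X.X ⟶ Z.X) → X.Form d → Pt Z.X → Prop}
    (h : OnN fun d X Z f ω _ z => C d X Z f ω z) :
    ∀ d : ℕ, 1 ≤ d → ∀ ε : ℝ, 0 < ε → ∀ R : Finset ℚ, (∀ r ∈ R, 0 ≤ r ∧ r ≤ 1) →
    ∃ n : ℕ, 1 ≤ n ∧ ∀ (X Z : Var) (f : X.X ⟶ Z.X) (ω : X.Form d) (B : X.QDiv)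
      (z : Pt Z.X), dimension X.str = d → ω.Nonzero → Pair (ε ≤ ·) (all X.X) ω B →
      (∀ y, B.coeff y ≠ 0 → B.coeff y ∈ R) → Contraction f → FanoType f ω →
      NefOver f (-logCan ω B) → z.Closed →
      EtLocal (fun Y W g (η : Y.Form d) D w =>
        (∃ (e : ℕ) (T : Var) (a : Y.X ⟶ T.X) (h : T.X ⟶ W.X) (θ : T.Form e),
          dimension T.str = e ∧ 1 ≤ e ∧ θ.Nonzero ∧ a ≫ h = g ∧ GeoTower (J d) a ∧
          TrivialOver a η D ∧ C e T W h θ w) ∨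
        ∃ e : ℕ, dimension W.str = e ∧ 1 ≤ e ∧ GeoTower (J d) g ∧ TrivialOver g η D ∧
          (LciqOr (e = d ∧ SameCoeff g D.coeff 0) W w ∨ 3 ≤ e ∧ MildCover e (e - 3) W w)) f B z →
      HasKltComplement f ω B n z := fun d hd ε hε R hR =>
  (((h.geo7 hD hF R₀ F J).or (onN_germG7 hD R₀ F J)).et d hd ε hε R hR).imp
    fun _ H => ⟨H.1, fun X Z f ω B z a b c e s u v t w => H.2 X Z f ω B z a b c e s t ⟨u, v, w⟩⟩

/-- towers are geometric towers -/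
theorem Tower.geo7 (c : Tower g) {J : ℕ} (hJ : 1 ≤ J) : GeoTower J g :=
  ⟨c.ctr, X, Y, g, 𝟙 _, 𝟙 _, RingHom.id _, inferInstance, Category.id_comp _,
    ⟨IsPullback.of_horiz_isIso ⟨by simp⟩, Category.id_comp _⟩, Br.pb_id (X := X.o),
    ⟨fun _ => 1, fun a => ⟨fun j => if j = ⟨0, hJ⟩ then a else 0, by simp [Emb.app]⟩⟩, c⟩

end Vale.Agent.P283R.Sl
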