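import Vale.Agent.P283R.Dp.St

/-!
# P283R, block DP: Fano type over the base implies Fano type over the middle
-/

open Set CategoryTheory AlgebraicGeometry
open Vale.Agent.P289 Vale.Agent.P289.H219 Vale.Agent.P270L Vale.Agent.P283M.Am Vale.Agent.P299.G

noncomputable section

namespace Vale.Agent.P283R.Dp

open Vale.Agent.P287D Vale.Agent.P283M Vale.Agent.P283M.Br Vale.Agent.P283M.Stm.Var
open Vale.Agent.P297Z Vale.Agent.P283R.Br

open Ft Ft.G58 in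
/-- **REL** -/
theorem rel90 : REL := by
  classical
  intro X Y Z g h d ω hg hs d1 hdim hω ⟨C, hC, hA⟩
  obtain ⟨tX, hX⟩ := Gl.amz X
  obtain ⟨tZ, hZ⟩ := Gl.amz Z
  obtain ⟨p, hp⟩ := Cf.Fto.exists_pe g
  obtain ⟨q, hq⟩ := Cf.Fto.exists_pe h
  have hK := ffd X _ hdim
  obtain ⟨j, -, fr⟩ := frm X _ hK ω hω
  have fin : {E | (-logCan ω C) E ≠ 0}.Finite :=
    ((Cf.Dw.form_fin' d1 hK fr).union C.support.finite_toSet).subset fun E a => by_contra fun k =>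
      a (by
        have e1 : formOrd ω (RingEquiv.refl X.K) E = 0 := not_not.1 fun e => k (.inl e)
        have e2 : C E = 0 := Finsupp.notMem_support_iff.1 fun e => k (.inr e)
        rw [Pi.neg_apply, logCan, e1, e2]
        simp)
  obtain ⟨N, a, b, t, N2, a0, bt, H⟩ := glb90 X Z (g ≫ h) (p.comp q) _ tX tZ
    (pe_comp hp hq) fin hA hX.1 hZ
  obtain ⟨φ, C', ε, n, φ0, ε0, -, hC', -, eq⟩ := ber11 X _ N ω C t d1 hdim hω hC bt N2
  have p0 : ∀ {f}, f ≠ 0 → p f ≠ 0 := fun k => (map_ne_zero p).2 k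
  have N0 : (N : ℚ) ≠ 0 := Nat.cast_ne_zero.2 (by omega)
  refine ⟨C', ⟨hC'.1, hC'.2.1, fun M E a m g b c => ε0.trans_le (hC'.2.2 M E a m g b c)⟩,
    amp9 X Y g p tX (tZ.image q) _ N a b φ⁻¹ hp hX
      (fun y _ => let ⟨ρ, k⟩ := hZ.1 (Pt.map h y) trivial; ⟨_, gen_up hq k⟩) (by omega) a0
      fun x σ ρ' k1 k2 => ?_⟩
  obtain ⟨ρ, k3⟩ := hZ.1 (Pt.map h (x.map g)) trivial
  obtain ⟨τ, k⟩ := bt x trivial
  have k4 := gen_up hq k3
  have u := k4.un k2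
  have s0 := pow_ne_zero a k1.2.1
  have r0 := p0 k4.2.1
  have r1 := p0 k2.2.1
  have r2 := mul_ne_zero (inv_ne_zero φ0) (pow_ne_zero b r1)
  refine ⟨div_ne_zero r2 s0, fun E s => ?_⟩
  have e1 : od (p (q ρ) ^ b / (τ * σ ^ a)) E.1 = _ := (H x τ σ ρ k k1 k3).2 E s
  have e2 : C' E = C E + od (φ / τ) E.1 / N := eq E τ (gen_gen k s)
  have e3 : od (p (ρ' / q ρ)) E.1 = 0 := od_un (p := x) ((hp.un u.2.1).2 u) s
  change od _ E.1 = _
  rw [od_div (pow_ne_zero b r0) (mul_ne_zero k.2.1 s0), od_mul k.2.1 s0, od_pow r0, Pi.neg_apply,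
    logCan] at e1
  rw [od_div φ0 k.2.1] at e2
  rw [map_div₀, od_div r1 r0, sub_eq_zero] at e3
  rw [od_div r2 s0, od_mul (inv_ne_zero φ0) (pow_ne_zero b r1), od_inv φ0, od_pow r1, e3,
    Pi.neg_apply, logCan, e2]
  field_simp
  linarith

end Vale.Agent.P283R.Dp
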