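import Vale.Agent.P283R.Dp.St2

/-!
# P283R, block DP: birational contractions (row `BIR`)
-/

noncomputable section

namespace Vale.Agent.P283R.Dp

open Vale.Agent.P287D
open Vale.Agent.P283M.Br (ffd)

/-- **BIR** -/
theorem bir64 : BIR := by
  intro X Y g d q ε hg hX hY p hp
  have ac := Cf.Fto.acl hg hp
  let _ := p.toAlgebra
  have : IsScalarTower ℂ Y.K X.K := .of_algebraMap_eq fun c => (hp.cst hg.1 c).symm
  have hk := ffd Y _ hY
  have := Pb.fin_of_ff hk (ffd X _ hX)
  exact Cf.iso Y.K X.K d q ε _ hk fun z => ac z (Algebra.IsAlgebraic.isAlgebraic z)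

end Vale.Agent.P283R.Dp
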