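import Vale.Agent.P283R.Dp.St2

/-!
# P283R, block DP: the row CMP
-/

open Set

noncomputable section

namespace Vale.Agent.P283R.Dp

open Vale.Agent.P287D Vale.Agent.P297Z
open Cf (Tow Go Acl ForE dn ee)

theorem cmp31 : CMP := by
  intro k K' K _ _ _ _ _ _ _ _ _ _ _ _ d e n q q₁ M₁ M₂ ε ε₁ ε₂ T T' hK' hK hM₁ hM₂ hT G₁ G₂
    k₀ ι _ _ _ φ v c μ y x m h hy hx m0 h0 S
  have tw : algebraMap k K = (algebraMap K' K).comp (algebraMap k K') :=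
    IsScalarTower.algebraMap_eq k K' K
  have ok : Ok (algebraMap K' K) := hK.ok (IsScalarTower.toAlgHom ℂ K' K)
  have mid : ∀ P w, Lies (algebraMap k K) P w →
      ∃ P', Lies (algebraMap K' K) P P' ∧ Lies (algebraMap k K') P' w := fun P w l => by
    rw [tw] at l
    exact (ok P).elim (fun z => (l.not_trv (z.comp _)).elim) fun ⟨P', p⟩ => ⟨P', p, p.of_comp l⟩
  obtain ⟨y₁, D₁, hy₁, -⟩ := Cb.exists_cn hK'
  obtain ⟨m₁, h₁, θ₁, a1, a2, a3, S₁, o₁, l₁⟩ := G₁ k₀ ι ((algebraMap k K').comp φ) v c μ y₁ x m h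
    ⟨D₁, hy₁⟩ hx m0 h0 (by rwa [← RingHom.comp_assoc, ← tw])
  obtain ⟨m₂, h₂, θ₂, b1, b2, b3, S₂, o₂, l₂⟩ := G₂ k₀ ι φ v c μ y y₁ m₁ h₁ hy ⟨D₁, hy₁⟩ a1 a2
    fun j w hw => ⟨(S₁ j w hw).1, fun t => (S₁ j w hw).2 (hT t)⟩
  have b4 := (map_ne_zero (algebraMap K' K)).2 b3
  refine ⟨m₂, h₂, θ₁ ^ M₂ * algebraMap K' K θ₂ ^ M₁, b1, b2,
    mul_ne_zero (pow_ne_zero _ a3) (pow_ne_zero _ b4), S₂, fun P => ?_, fun P w l => ?_⟩
  · have k1 : (P.ord (algebraMap K' K h₁) : ℝ) / m₁ =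
        P.ord (algebraMap k K h₂) / m₂ + P.ord (algebraMap K' K θ₂) / M₂ := by
      rw [IsScalarTower.algebraMap_apply k K' K h₂]
      rcases ok P with z | ⟨P', p⟩
      · simp [z.ord]
      · rw [p.ord h₁, p.ord (algebraMap k K' h₂), p.ord θ₂]
        push_cast
        rw [mul_div_assoc, o₂ P']
        ring
    have n1 : (M₁ : ℝ) ≠ 0 := Nat.cast_ne_zero.2 hM₁.ne'
    have n2 : (M₂ : ℝ) ≠ 0 := Nat.cast_ne_zero.2 hM₂.ne'
    rw [o₁ P, k1, Pl.ord_mul _ (pow_ne_zero _ a3) (pow_ne_zero _ b4), Pl.ord_pow, Pl.ord_pow]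
    push_cast
    field_simp
    ring
  · obtain ⟨P', p1, p2⟩ := mid P w l
    have e : ee P w = ee P P' * ee P' w := by
      rw [ee, ee, ee, IsScalarTower.algebraMap_apply k K' K w.t, p1.ord]
      push_cast
      rfl
    have e0 : 0 ≤ ee P P' := Int.cast_nonneg_iff.2 p1.e_pos.le
    rw [e, mul_assoc]
    exact (mul_le_mul_of_nonneg_left (l₂ P' w p2) e0).trans (l₁ P P' p1)

end Vale.Agent.P283R.Dp
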