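import Vale.Agent.P283R.Dp.St2

/-!
# P283R, block DP: étale base changes (row `COR`)
-/

open Set CategoryTheory AlgebraicGeometry

noncomputable section

namespace Vale.Agent.P283R.Dp

open Vale.Agent.P287D
open Vale.Agent.P283M Vale.Agent.P283M.Stm Vale.Agent.P283M.Stm.Var
open Vale.Agent.P283M.Br (Dom plc ffd pl_of)

/-- **COR** -/
theorem cor88 : COR := by
  intro fx X Y X' Y' g e g' π ι h D n d q M ε ε' sp hX hY ε0 ε1 M0 up p hp
  have := h.et
  have cn := Eb.con _ _ _ _ _ _ _ _ _ h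
  have := cn.2.2.1
  obtain ⟨p', hp'⟩ := Cf.Fto.exists_pe g'
  obtain ⟨s, hq⟩ := Et.exists_pe e
  have eq : Eb.Ep e s := ⟨h.et, h.ov, hq⟩
  have sq : ι.comp p = p'.comp s := pe_uniq88 (Ft.G58.pe_comp h.ep.pe hp)
    (h.pb.w ▸ Ft.G58.pe_comp hp' hq)
  have go := up p' hp'
  let _ := p.toAlgebra
  let _ := p'.toAlgebra
  let _ := s.toAlgebra
  let _ := ι.toAlgebra
  have t0 : IsScalarTower ℂ Y.K X.K := .of_algebraMap_eq fun c => (hp.cst h.con.1 c).symm
  have t1 : IsScalarTower ℂ Y.K Y'.K := eq.tw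
  have t2 : IsScalarTower ℂ X.K X'.K := h.ep.tw
  have t3 : IsScalarTower ℂ Y'.K X'.K := .of_algebraMap_eq fun c => (hp'.cst cn.1 c).symm
  have hk := ffd Y n hY
  have hK := ffd X d hX
  have ac := Cf.Fto.acl h.con hp
  have f1 : FiniteDimensional Y.K Y'.K := Pb.fin_of_ff hk (eq.ff hk)
  obtain ⟨b, hb⟩ := sp
  have sb : Submodule.span X.K (range b) = ⊤ := eq_top_iff.2 fun a _ => by
    obtain ⟨c, rfl⟩ := hb a
    exact Submodule.sum_mem _ fun i _ => Submodule.smul_mem _ (c i) (Submodule.subset_span ⟨i, rfl⟩)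
  have f2 : FiniteDimensional X.K X'.K :=
    Module.Finite.of_fg_top (sb ▸ Submodule.fg_span (finite_range b))
  have r2 : Module.finrank X.K X'.K ≤ D :=
    (finrank_le_of_span_eq_top sb).trans_eq (Fintype.card_fin D)
  have s1 : ∀ a : Y.K, algebraMap Y'.K X'.K (algebraMap Y.K Y'.K a) =
      algebraMap X.K X'.K (algebraMap Y.K X.K a) := fun a => (DFunLike.congr_fun sq a).symm
  have : CharZero Y.K := charZero_of_injective_algebraMap (algebraMap ℂ Y.K).injective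
  refine Gz.of (G11.go hk hK (eq.ff hk) (h.ep.ff hK) s1 ac r2
    ((rk61 Y.K X.K Y'.K X'.K s1 ac).trans r2) (fun P' hP' => ?_) ε0 ε1 M0
    (fx Y'.K X'.K n d q M ε ε' _ M0 ε1 go))
  obtain ⟨E, hE⟩ := hP'
  obtain ⟨Q, i, -⟩ := pl_of plc E
  obtain rfl := Br.pl_eq i hE
  obtain ⟨y, P, -, a, l, o⟩ := h.ep.pl i
  exact ⟨P, ⟨y, a.dom⟩, l, o⟩

end Vale.Agent.P283R.Dp
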