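import Vale.Agent.P283R.Dp.St2
import Vale.Agent.P283R.Dp.Frr88

/-!
# P283R, block DP: compositions of contractions (row `CPR`)
-/

open Set CategoryTheory AlgebraicGeometry

noncomputable section

namespace Vale.Agent.P283R.Dp

open Vale.Agent.P287D
open Vale.Agent.P283M Vale.Agent.P283M.Stm Vale.Agent.P283M.Stm.Var
open Vale.Agent.P283M.Br (ffd)
open Vale.Agent.P283R.Et (Pe)

/-- **CPR** -/
theorem cpr21 : CPR := by
  intro cmp X Y W g h e m d q q₁ M₁ M₂ ε ε₁ ε₂ hg hh hX hY m1 m2 s1 s2 p hp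
  have := hg.2.2.1
  have := hh.2.2.1
  obtain ⟨a, ha⟩ := Cf.Fto.exists_pe g
  obtain ⟨b, hb⟩ := Cf.Fto.exists_pe h
  obtain rfl : p = a.comp b := pe_uniq88 hp (Ft.G58.pe_comp ha hb)
  let _ := a.toAlgebra
  let _ := b.toAlgebra
  let _ := (a.comp b).toAlgebra
  have t1 : IsScalarTower ℂ W.K Y.K := .of_algebraMap_eq fun c => (hb.cst hh.1 c).symm
  have t2 : IsScalarTower ℂ Y.K X.K := .of_algebraMap_eq fun c => (ha.cst hg.1 c).symm
  have t3 : IsScalarTower W.K Y.K X.K := .of_algebraMap_eq fun _ => rfl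
  exact cmp W.K Y.K X.K e m d q q₁ M₁ M₂ ε ε₁ ε₂ (Cf.Pri X) (Cf.Pri Y) (ffd Y m hY) (ffd X d hX)
    m1 m2 (Cf.prm X Y g a hg ha).1 (s1 a ha) (s2 b hb)

end Vale.Agent.P283R.Dp
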