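import Vale.Agent.P283R.Dp.St2

/-!
# P283R, block DP: the row MON
-/

noncomputable section

namespace Vale.Agent.P283R.Dp

open Vale.Agent.P287D

theorem mon31 : MON := by
  intro k K _ _ _ _ _ _ d n q M₁ M₂ ε ε₁ ε₂ T hM₂ hM hε H k₀ ι _ _ _ φ v c μ y x m h hy hx hm hh hs
  obtain ⟨m₀, h₀, θ, h1, h2, h3, h4, h5, h6⟩ := H k₀ ι φ v c μ y x m h hy hx hm hh hs
  obtain ⟨b, rfl⟩ := hM
  have hM₁ : (M₁ : ℝ) ≠ 0 := by
    rintro h0
    have : M₁ = 0 := by exact_mod_cast h0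
    simp [this] at hM₂
  have hb : (b : ℝ) ≠ 0 := by
    rintro h0
    have : b = 0 := by exact_mod_cast h0
    simp [this] at hM₂
  refine ⟨m₀, h₀, θ ^ b, h1, h2, pow_ne_zero _ h3,
    fun j P hP => ⟨hε.trans (h4 j P hP).1, False.elim⟩, fun P => ?_, h6⟩
  rw [h5 P, P.ord_pow θ b]
  push_cast
  field_simp

end Vale.Agent.P283R.Dp
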