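import Vale.Agent.P283R.Dp.St2

/-!
# P283R, block DP: small modifications (row `SMR`)
-/

open Set CategoryTheory AlgebraicGeometry

noncomputable section

namespace Vale.Agent.P283R.Dp

open Vale.Agent.P287D
open Vale.Agent.P289 (Pt St toRat val DForm dimension)
open Vale.Agent.P283M Vale.Agent.P283M.Stm Vale.Agent.P283M.Stm.Var
open Vale.Agent.P283M.Br (Dom plc ffd pl_of)
open Vale.Agent.P283R.Et (Pe)

/-- the prime divisors upstairs are prime divisors downstairs -/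
theorem pri_small90 {X' X : Var} {π : X'.X ⟶ X.X} {p : X.K ≃+* X'.K}
    (pe : Pe π (p : X.K →+* X'.K)) (sm : ∀ E' : X'.PrimeDiv, (E'.1.map π).CodimOne)
    {w : Pl X'.K} (hw : w ∈ Cf.Pri X') :
    ∃ P ∈ Cf.Pri X, Lies (p.symm : X'.K →+* X.K) P w := by
  obtain ⟨E, hE⟩ := hw
  obtain ⟨Q, j, -⟩ := pl_of plc E
  obtain rfl := Br.pl_eq j hE
  obtain ⟨P, i, -⟩ := pl_of (X := X) plc ⟨_, sm E⟩
  refine ⟨P, ⟨_, i.dom⟩, fun b => ?_⟩
  obtain ⟨b, rfl⟩ := p.surjective b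
  refine (j _).trans ?_
  rw [RingHom.coe_coe, p.symm_apply_apply]
  refine Iff.trans ?_ (i b).symm
  refine ⟨fun z => by_contra fun n => ?_, fun z => pe.reg z⟩
  have b0 : b ≠ 0 := fun o => n ((i b).1 (o ▸ zero_mem _))
  have v : RegAt b⁻¹ (E.1.map π) :=
    (i _).1 ((P.ring.mem_or_inv_mem b).resolve_left fun o => n ((i b).1 o))
  have y : (p b⁻¹)⁻¹ = p b := by rw [map_inv₀, inv_inv]
  exact n (inv_inv b ▸ ((pe.un v).1
    ⟨(map_ne_zero _).2 (inv_ne_zero b0), pe.reg v, (y ▸ z : RegAt (p b⁻¹)⁻¹ E.1)⟩).2.2)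

/-- **SMR** -/
theorem smr90 : SMR := by
  intro cmp X' X Y π g p e d q M ε ε' hπ hg pe sm hX hX' M0 h r hr
  have h' := h _ (Ft.G58.pe_comp pe hr)
  let _ := r.toAlgebra
  let _ := ((p : X.K →+* X'.K).comp r).toAlgebra
  let _ := (p.symm : X'.K →+* X.K).toAlgebra
  have c1 : ∀ c, p (algebraMap ℂ X.K c) = algebraMap ℂ X'.K c := pe.cst hπ.1
  have c2 : ∀ c, r (algebraMap ℂ Y.K c) = algebraMap ℂ X.K c := hr.cst hg.1
  have t1 : IsScalarTower ℂ Y.K X'.K :=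
    .of_algebraMap_eq fun c => ((congrArg p (c2 c)).trans (c1 c)).symm
  have t2 : IsScalarTower ℂ X'.K X.K :=
    .of_algebraMap_eq fun c => (p.symm_apply_eq.2 (c1 c).symm).symm
  have t3 : IsScalarTower Y.K X'.K X.K :=
    .of_algebraMap_eq fun c => (p.symm_apply_apply (r c)).symm
  have hK := ffd X d hX
  have hK' := ffd X' d hX'
  have k := cmp Y.K X'.K X.K e d d q q 1 M ε ε ε' (Cf.Pri X) (Cf.Pri X') hK' hK one_pos M0
    (fun w hw => pri_small90 pe sm hw)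
    (Cf.iso X'.K X.K d q ε (Cf.Pri X) hK' p.symm.surjective) h'
  rwa [one_mul] at k

end Vale.Agent.P283R.Dp
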