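import Vale.Agent.P283R.Dp.Ons58
import Vale.Agent.P283R.Dp.Bir64
import Vale.Agent.P283R.Dp.Cmp31
import Vale.Agent.P283R.Dp.Cor88
import Vale.Agent.P283R.Dp.Cpr21
import Vale.Agent.P283R.Dp.Fix11
import Vale.Agent.P283R.Dp.Mon31
import Vale.Agent.P283R.Dp.Smr90

/-!
# P283R, block DP: the assembly for nested base changes
-/

open CategoryTheory AlgebraicGeometry

namespace Vale.Agent.P283R

theorem Dp.rows2 : Dp.Rows2 := ⟨Dp.fix11, Dp.mon31, Dp.bir64, Dp.cpr21 Dp.cmp31, Dp.smr90 Dp.cmp31,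
  Dp.cor88 Dp.fix11⟩

namespace Sl

open Var

/-- towers with nested base changes over a class or over a germ -/
theorem literalS (J : ℕ → ℕ) {C : ∀ (d : ℕ) (X Z : Var), (X.X ⟶ Z.X) → X.Form d → Pt Z.X → Prop}
    (h : OnN fun d X Z f ω _ z => C d X Z f ω z) :
    ∀ d : ℕ, 1 ≤ d → ∀ ε : ℝ, 0 < ε → ∀ R : Finset ℚ, (∀ r ∈ R, 0 ≤ r ∧ r ≤ 1) →
    ∃ n : ℕ, 1 ≤ n ∧ ∀ (X Z : Var) (f : X.X ⟶ Z.X) (ω : X.Form d) (B : X.QDiv)
      (z : Pt Z.X), dimension X.str = d → ω.Nonzero → Pair (ε ≤ ·) (all X.X) ω B →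
      (∀ y, B.coeff y ≠ 0 → B.coeff y ∈ R) → Contraction f → FanoType f ω →
      NefOver f (-logCan ω B) → z.Closed →
      EtLocal (fun Y W g (η : Y.Form d) D w =>
        (∃ (e : ℕ) (T : Var) (a : Y.X ⟶ T.X) (h : T.X ⟶ W.X) (θ : T.Form e),
          dimension T.str = e ∧ 1 ≤ e ∧ θ.Nonzero ∧ a ≫ h = g ∧ Steps (J d) a ∧
          TrivialOver a η D ∧ C e T W h θ w) ∨
        ∃ e : ℕ, dimension W.str = e ∧ 1 ≤ e ∧ Steps (J d) g ∧ TrivialOver g η D ∧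
          (LciqOr (e = d ∧ SameCoeff g D.coeff 0) W w ∨ 3 ≤ e ∧ MildCover e (e - 3) W w)) f B z →
      HasKltComplement f ω B n z := literalS_of Dp.rows2 J h

end Sl

end Vale.Agent.P283R
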