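import Vale.Agent.P283R.Dp.St
import Vale.Agent.P283R.Cf.Dwnr

/-!
# P283R, block DP: the pair on the base
-/

open Set CategoryTheory AlgebraicGeometry

noncomputable section

namespace Vale.Agent.P283R.Dp

open Vale.Agent.P287D Vale.Agent.P297Z
open Vale.Agent.P289 (Pt St toRat val DForm dimension)
open Vale.Agent.P283M Vale.Agent.P283M.Stm Vale.Agent.P283M.Stm.Var
open Vale.Agent.P283M.Br (Dom har fin plc mdc mod frm ffd pl_of dom_S loc_uniq)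
open Vale.Agent.P283R.Et (Pe)
open Cf (Pri Sta aj dn ee)
open Cf.Dw

theorem dwg9 : DWG := by
  intro tow cht prm D r q ε q0 ε0
  obtain ⟨q', M, ε', q1, M0, ε1, H⟩ := tow D r q ε q0 ε0
  have q2 : (0 : ℚ) < q' := Nat.cast_pos.2 q1
  refine ⟨(Finset.range (q' + 1)).image fun a : ℕ => (a : ℚ) / q', M, ε', fun a ha => ?_, M0, ε1,
    fun X Y g p hg hp d ω η B hd hdim hω hη hB hq tr tw => ?_⟩
  · obtain ⟨b, hb, rfl⟩ := Finset.mem_image.1 ha
    refine ⟨by positivity, (div_le_one q2).2 ?_⟩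
    exact_mod_cast Nat.lt_succ_iff.1 (Finset.mem_range.1 hb)
  let _ := p.toAlgebra
  have : IsScalarTower ℂ Y.K X.K := .of_algebraMap_eq fun c => (hp.cst hg.1 c).symm
  obtain ⟨hk, hK, go⟩ := H Y.K X.K d (Pri X) hd tw
  obtain ⟨N, W, v, m, a, c, cov, ch⟩ :=
    cht X Y g p hg hp (d + r) ω B (by omega) hdim hω tr
  obtain ⟨up, dn'⟩ := prm X Y g p hg hp
  obtain ⟨j, j0, fr⟩ := frm X _ hK ω hω
  obtain ⟨j', j1, fr'⟩ := frm Y _ hk η hη
  obtain ⟨x, Dx, fx, ex⟩ := Cb.exists_cn hK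
  obtain ⟨y, Dy, fy, ey⟩ := Cb.exists_cn hk
  have m0 : ∀ i, (0 : ℝ) < m i := fun i => Nat.cast_pos.2 (ch i).1
  have h0 : a 0 / j ^ m 0 ≠ 0 := div_ne_zero (ch 0).2.1 (pow_ne_zero _ j0)
  have oh : ∀ P : Pl X.K, (P.ord (a 0 / j ^ m 0) : ℝ) / m 0 = P.ord (a 0) / m 0 - P.ord j :=
    fun P => by
      rw [Pl.ord_div _ (ch 0).2.1 (pow_ne_zero _ j0), Pl.ord_pow]
      have := (m0 0).ne'
      push_cast
      field_simp
  have oa : ∀ i (P : Pl X.K), (P.ord (a i) : ℝ) / m i =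
      P.ord (p (c i)) / (m 0 * m i : ℕ) + P.ord (a 0) / m 0 := fun i P => by
    have e := congrArg P.ord (ch i).2.2.2.2.2.2
    rw [Pl.ord_mul _ ((map_ne_zero p).2 (ch i).2.2.1) (pow_ne_zero _ (ch 0).2.1), Pl.ord_pow,
      Pl.ord_pow] at e
    have e' : (m 0 : ℝ) * P.ord (a i) = P.ord (p (c i)) + m i * P.ord (a 0) := by
      exact_mod_cast e
    have := (m0 0).ne'
    have := (m0 i).ne'
    push_cast
    field_simp
    linarith
  have ea : ∀ i (P : Pl X.K), aj x (m 0) (a 0 / j ^ m 0) (p (c i)) (m 0 * m i) P =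
      1 + (cn X.K (d + r) P + P.ord j - P.ord (a i) / m i) := fun i P => by
    rw [aj, ld, oh, oa i, ex]
    ring
  have sta : Sta ((algebraMap Y.K X.K).comp (RingHom.id Y.K)) q ε (Pri X) v c
      (fun i => m 0 * m i) x (m 0) (a 0 / j ^ m 0) := fun i P hP => by
    obtain ⟨ξ, s1, s2⟩ := (ch i).2.2.2.2.1 P hP
    have s3 := (ch i).2.2.2.2.2.1 ξ s1
    change ε ≤ aj x (m 0) _ (p (c i)) (m 0 * m i) P ∧ (_ → aj x (m 0) _ (p (c i)) (m 0 * m i) P ≤ 1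
      ∧ ∃ z : ℤ, q * aj x (m 0) _ (p (c i)) (m 0 * m i) P = z)
    rw [ea]
    refine ⟨val_pair fr hB trivial s2 (ch i).1 s3, fun ⟨E, hE⟩ => ?_⟩
    obtain rfl := uq s2 hE
    obtain ⟨z, hz⟩ := hq E
    have b0 : (0 : ℝ) ≤ B E := by exact_mod_cast hB.1 E trivial
    have hz' : (q : ℝ) * B E = z := by exact_mod_cast hz
    rw [val_coef fr hE (ch i).1 s3]
    exact ⟨by linarith, q - z, by push_cast; linarith⟩
  obtain ⟨m₀, h₀, θ, n0, h1, θ0, S, O, L⟩ := go Y.K (Fin (N + 1)) (RingHom.id _) v c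
    (fun i => m 0 * m i) y x (m 0) _ ⟨Dy, fy⟩ ⟨Dx, fx⟩ (ch 0).1 h0 sta
  have n1 : (0 : ℝ) < m₀ := Nat.cast_pos.2 n0
  have M1 : (0 : ℝ) < M := Nat.cast_pos.2 M0
  let μ : Fin (N + 1) → ℕ := fun i => m₀ * (m 0 * m i)
  let G : Fin (N + 1) → Y.K := fun i => j' ^ μ i * h₀ ^ (m 0 * m i) * c i ^ m₀
  have μ0 : ∀ i, 0 < μ i := fun i => Nat.mul_pos n0 (Nat.mul_pos (ch 0).1 (ch i).1)
  have μ1 : ∀ i, (0 : ℝ) < μ i := fun i => Nat.cast_pos.2 (μ0 i)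
  have G0 : ∀ i, G i ≠ 0 := fun i =>
    mul_ne_zero (mul_ne_zero (pow_ne_zero _ j1) (pow_ne_zero _ h1)) (pow_ne_zero _ (ch i).2.2.1)
  have oG : ∀ {F : Type} [Field F] [Algebra ℂ F] (φ : Y.K →+* F) i (P : Pl F),
      (P.ord (φ (G i)) : ℝ) / μ i =
        P.ord (φ j') + P.ord (φ h₀) / m₀ + P.ord (φ (c i)) / (m 0 * m i : ℕ) := fun φ i P => by
    have e1 := (map_ne_zero φ).2 j1
    have e2 := (map_ne_zero φ).2 h1
    have e3 := (map_ne_zero φ).2 (ch i).2.2.1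
    simp only [G, μ, map_mul, map_pow]
    rw [Pl.ord_mul _ (mul_ne_zero (pow_ne_zero _ e1) (pow_ne_zero _ e2)) (pow_ne_zero _ e3),
      Pl.ord_mul _ (pow_ne_zero _ e1) (pow_ne_zero _ e2), Pl.ord_pow, Pl.ord_pow, Pl.ord_pow]
    have := (m0 0).ne'
    have := (m0 i).ne'
    have := n1.ne'
    push_cast
    field_simp
  have eb : ∀ i (w : Pl Y.K), aj y m₀ h₀ (c i) (m 0 * m i) w =
      1 + (cn Y.K d w + w.ord j' - w.ord (G i) / μ i) := fun i w => by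
    have := oG (RingHom.id _) i w
    simp only [RingHom.id_apply] at this
    rw [aj, ld, this, ey]
    ring
  have ec : ∀ i (P : Pl X.K), (P.ord (a i) : ℝ) / m i =
      P.ord (p (G i)) / μ i - P.ord (p j') + P.ord θ / M + P.ord j := fun i P => by
    have e := O P
    rw [oh] at e
    change _ = (P.ord (p h₀) : ℝ) / m₀ + _ at e
    rw [oa, oG]
    linarith
  obtain ⟨Δ, hΔ⟩ := glue_div hd hk fr' W cov μ μ0 G G0 fun E i i' s1 s2 => by
    obtain ⟨w, e, o⟩ := pl_of plc E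
    obtain ⟨P, ⟨E', s3⟩, l⟩ := up w ⟨E, e.dom⟩
    have s4 := uq (dn' P _ s3 w l) e.dom
    have t1 := val_coef fr s3 (ch i).1 ((ch i).2.2.2.2.2.1 _ (show E'.1.map g ∈ W i from s4 ▸ s1))
    have t2 := val_coef fr s3 (ch i').1
      ((ch i').2.2.2.2.2.1 _ (show E'.1.map g ∈ W i' from s4 ▸ s2))
    rw [← t2, ec, ec, l.ord, l.ord (G i')] at t1
    have e0 : (0 : ℝ) < P.ord (p w.t) := Int.cast_pos.2 l.e_pos
    have t3 : (w.ord (G i) : ℝ) / μ i = w.ord (G i') / μ i' := by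
      refine mul_left_cancel₀ e0.ne' ?_
      push_cast at t1
      rw [← mul_div_assoc, ← mul_div_assoc]
      linarith
    rw [o, o, ← Rat.cast_inj (α := ℝ)]
    push_cast
    exact t3
  have S' : ∀ i, ∀ ξ ∈ W i, ∀ w : Pl Y.K, Dom w.ring ξ →
      ε' ≤ 1 + (cn Y.K d w + w.ord j' - w.ord (G i) / μ i) ∧ (w ∈ dn Y.K (Pri X) →
        1 + (cn Y.K d w + w.ord j' - w.ord (G i) / μ i) ≤ 1 ∧
        ∃ z : ℤ, q' * (1 + (cn Y.K d w + w.ord j' - w.ord (G i) / μ i)) = z) :=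
    fun i ξ s1 w s2 => eb i w ▸ S i w fun b hb => (s2 b ((ch i).2.2.2.1 b hb ξ s1)).1
  have cf : ∀ E, 0 ≤ Δ E ∧ Δ E ≤ 1 ∧ ∃ z : ℤ, q' * Δ E = z := fun E => by
    obtain ⟨w, e, -⟩ := pl_of plc E
    obtain ⟨i, s1⟩ := cov E.1
    obtain ⟨t1, t2⟩ := S' i _ s1 w e.dom
    obtain ⟨t2, z, t3⟩ := t2 (up w ⟨E, e.dom⟩)
    rw [val_coef fr' e.dom (μ0 i) (hΔ i _ s1)] at t1 t2 t3
    refine ⟨?_, ?_, q' - z, ?_⟩
    · exact_mod_cast (by linarith : (0 : ℝ) ≤ Δ E)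
    · exact_mod_cast (by linarith : (Δ E : ℝ) ≤ 1)
    · exact_mod_cast (by linarith : (q' : ℝ) * Δ E = q' - z)
  have pj := (map_ne_zero p).2 j1
  refine ⟨Δ, ⟨fun E _ => (cf E).1, fun ξ _ => ?_, fun Mo E _ n b n0 hb => ?_⟩,
    fun E _ => ?_, ⟨M, θ * j ^ M / p j' ^ M, M0, ?_, fun ξ n b hb => ⟨?_, fun E hE => ?_⟩⟩,
    fun Z h z n n0 ⟨s, hs⟩ ⟨U, Λ, φ, zU, le, kl, lq⟩ => ?_⟩
  · obtain ⟨i, s1⟩ := cov ξ
    exact ⟨_, _, μ0 i, hΔ i _ s1⟩
  · obtain ⟨⟨Q, e⟩, o⟩ := plc Y Mo.Y Mo.pull (mdc Y Mo).1 E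
    have dm := (mdc Y Mo).2 E Q e
    obtain ⟨i, s1⟩ := cov (E.1.map Mo.π)
    have t := loc_uniq har plc hb (hΔ i _ s1) dm
    have n1 : (n : ℝ) ≠ 0 := Nat.cast_ne_zero.2 n0.ne'
    have t' : (Q.ord b : ℝ) / n = Q.ord (G i) / μ i := by
      rw [div_eq_div_iff n1 (μ1 i).ne']
      linarith
    show ε' ≤ _
    rw [fr' _ _ E Q e (o Q e), o Q e, t']
    exact (S' i _ s1 Q dm).1
  · obtain ⟨t1, t2, z, t3⟩ := cf E
    exact mem_R q1 t1 t2 t3
  · exact div_ne_zero (mul_ne_zero θ0 (pow_ne_zero _ j0)) (pow_ne_zero _ pj)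
  · exact mul_ne_zero (pow_ne_zero _ (div_ne_zero (mul_ne_zero θ0 (pow_ne_zero _ j0))
      (pow_ne_zero _ pj))) (pow_ne_zero _ ((map_ne_zero p).2 hb.1))
  · obtain ⟨P, e, o⟩ := pl_of plc E
    obtain ⟨i, s1⟩ := cov (E.1.map g)
    have s2 : LocalEq (logCan η Δ) n b (E.1.map g) := gen hb (hE.map g.continuous)
    have t1 := pull_le hp s2 (hΔ i _ s1) (fun _ _ => le_rfl) e.dom
    have t2 := pull_le hp (hΔ i _ s1) s2 (fun _ _ => le_rfl) e.dom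
    have t3 := ((ch i).2.2.2.2.2.1 E.1 s1).2 E specializes_rfl
    rw [o] at t3
    have t4 : (P.ord (a i) : ℝ) = m i * logCan ω B E := by exact_mod_cast t3
    have t5 := ec i P
    rw [t4, mul_div_cancel_left₀ _ (m0 i).ne'] at t5
    have t6 : (P.ord (p b) : ℝ) = n * (P.ord (p (G i)) / μ i) := by
      rw [← mul_div_assoc, eq_div_iff (μ1 i).ne']
      linarith
    rw [o, Pl.ord_mul _ (pow_ne_zero _ (div_ne_zero (mul_ne_zero θ0 (pow_ne_zero _ j0))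
      (pow_ne_zero _ pj))) (pow_ne_zero _ ((map_ne_zero p).2 hb.1)), Pl.ord_pow, Pl.ord_pow,
      Pl.ord_div _ (mul_ne_zero θ0 (pow_ne_zero _ j0)) (pow_ne_zero _ pj),
      Pl.ord_mul _ θ0 (pow_ne_zero _ j0), Pl.ord_pow, Pl.ord_pow, ← Rat.cast_inj (α := ℝ)]
    push_cast
    rw [t5, t6]
    field_simp
    ring
  · have n1 : (0 : ℝ) < n := Nat.cast_pos.2 n0
    by_cases ne : ∃ ξ : Pt Y.X, ξ ∈ h ⁻¹ᵁ U
    swap
    · exact cpl' (by omega) hK fr j0 (fun E => hB.1 E trivial) zU n0 one_ne_zero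
        (fun E s1 => (ne ⟨E.1.map g, s1⟩).elim) fun ξ s1 => (ne ⟨g ξ, s1⟩).elim
    obtain ⟨ξ₁, s1⟩ := ne
    have φ0 := (lq _ s1).1
    have pφ := (map_ne_zero p).2 φ0
    have ψ0 : θ ^ s * (p φ / p j' ^ n) ≠ 0 :=
      mul_ne_zero (pow_ne_zero _ θ0) (div_ne_zero pφ (pow_ne_zero _ pj))
    have oψ : ∀ P : Pl X.K, (P.ord (θ ^ s * (p φ / p j' ^ n)) : ℝ) / n =
        P.ord θ / M + P.ord (p φ) / n - P.ord (p j') := fun P => by
      rw [Pl.ord_mul _ (pow_ne_zero _ θ0) (div_ne_zero pφ (pow_ne_zero _ pj)),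
        Pl.ord_div _ pφ (pow_ne_zero _ pj), Pl.ord_pow, Pl.ord_pow]
      have e : (n : ℝ) = M * s := by exact_mod_cast hs
      have e1 : (s : ℝ) * P.ord θ / n = P.ord θ / M := by
        rw [div_eq_div_iff n1.ne' M1.ne', e]
        ring
      push_cast
      rw [add_div, e1, sub_div, mul_div_cancel_left₀ _ n1.ne']
      ring
    refine cpl' (by omega) hK fr j0 (fun E => hB.1 E trivial) zU n0 ψ0 (fun E s1 P s2 => ?_)
      fun ξ s1 P s2 => ?_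
    · have s3 : E.1.map g ∈ h ⁻¹ᵁ U := s1
      obtain ⟨i, s4⟩ := cov (E.1.map g)
      have t1 := pull_le hp (hΔ i _ s4) (lq _ s3) (fun y hy => add_le_add_right
        (le y (hy.mem_open (h ⁻¹ᵁ U).isOpen s3)) _) s2
      have t2 := val_coef fr s2 (ch i).1 ((ch i).2.2.2.2.2.1 E.1 s4)
      have t3 : (P.ord (p (G i)) : ℝ) / μ i ≤ P.ord (p φ) / n := by
        rw [div_le_div_iff₀ (μ1 i) n1]
        linarith
      rw [ec] at t2
      rw [oψ]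
      linarith
    · have s3 : Pt.map g ξ ∈ h ⁻¹ᵁ U := s1
      have e := O P
      change _ = (P.ord (p h₀) : ℝ) / m₀ + _ at e
      rw [oψ, ex]
      rcases Hd.tv_or_ov (L := Y.K) hK P with t | ⟨w, l⟩
      · have t' : Trv p P := t
        have t1 := (sta 0 P fun b _ => t' b).1
        change ε ≤ aj x (m 0) _ (p (c 0)) (m 0 * m 0) P at t1
        rw [aj, ld, e, t'.ord, t'.ord] at t1
        rw [t'.ord, t'.ord]
        simp only [Int.cast_zero, zero_div] at t1 ⊢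
        linarith
      · have l' : Lies p P w := l
        have t1 : (0 : ℝ) < _ := val_pair fr' kl s3 (dn' P ξ s2 w l') n0 (lq _ s3)
        have t2 := L P w l'
        have e0 : (0 : ℝ) < P.ord (p w.t) := Int.cast_pos.2 l'.e_pos
        have t3 := mul_pos e0 t1
        change (P.ord (p w.t) : ℝ) * _ ≤ _ at t2
        rw [ld, ld, e, l'.ord h₀] at t2
        rw [l'.ord φ, l'.ord j']
        rw [ey] at t3
        push_cast at t2 ⊢
        rw [mul_div_assoc] at t2 ⊢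
        linarith

end Vale.Agent.P283R.Dp
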