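import Vale.Agent.P283R.Dp.St2

/-!
# P283R, block DP: the row FIX
-/

noncomputable section

namespace Vale.Agent.P283R.Dp

open Vale.Agent.P287D Vale.Agent.P297Z Cf

open G11 in
theorem fix31 : FIX := by
  intro k K _ _ _ _ _ _ d n q M ε ε' T M0 ε2 go k₀ ι _ _ _ φ v c μ y x m h hy hx hm h0 sta
  obtain ⟨m₀, H, θ, m1, H0, θ0, S, idn, Lo⟩ := go k₀ ι φ v c μ y x m h hy hx hm h0 sta
  refine ⟨m₀, H, θ, m1, H0, θ0, fun j w hw => ?_, idn, Lo⟩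
  have u1 : ε' ≤ aj y m₀ H (φ (c j)) (μ j) w := (S j w hw).1
  refine ⟨u1, fun ⟨P, hP, l⟩ => ?_⟩
  obtain ⟨u2, z, u3⟩ := (sta j P fun a ha => (l _).1 (hw a ha)).2 hP
  have u4 : ee P w * aj y m₀ H (φ (c j)) (μ j) w ≤ 1 := by
    have := Lo P w l
    simp only [aj, RingHom.comp_apply, eo l, mul_sub, mul_div_assoc] at u2 ⊢
    linarith
  have u5 := e1 l
  refine ⟨by nlinarith, ?_⟩
  obtain ⟨f, hf⟩ : ∃ f : ℕ, ee P w = f :=
    ⟨(P.ord (algebraMap k K w.t)).toNat, by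
      rw [ee, ← Int.cast_natCast, Int.toNat_of_nonneg (Lies.e_pos l).le]⟩
  have u6 : f ≤ ⌈1 / ε'⌉₊ := by
    have : (f : ℝ) ≤ 1 / ε' := by
      rw [le_div_iff₀ ε2, ← hf]
      nlinarith
    exact_mod_cast this.trans (Nat.le_ceil _)
  obtain ⟨f', hf'⟩ := Nat.dvd_factorial (show 0 < f by exact_mod_cast hf ▸ one_pos.trans_le u5) u6
  obtain ⟨z1, u7⟩ := Stp.kap_int x P
  obtain ⟨z2, u8⟩ := Stp.kap_int y w
  refine ⟨f' * (q * M * (f * (1 + z2) - (1 + z1)) + M * z + q * P.ord θ), ?_⟩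
  have u9 : (M : ℝ) ≠ 0 := Nat.cast_ne_zero.2 M0.ne'
  simp only [aj, ld, RingHom.comp_apply, idn, eo l, hf, u7, mul_div_assoc] at u3
  rw [hf', aj, ld, u8]
  push_cast
  rw [← u3]
  generalize (w.ord (φ (c j)) : ℝ) / μ j = X
  generalize (w.ord H : ℝ) / m₀ = Y
  field_simp
  ring

end Vale.Agent.P283R.Dp
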