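import Vale.Agent.P283R.Dp.St
import Vale.Agent.P283R.Dp.Ftg35

/-!
# P283R, block DP: the base is of Fano type
-/

namespace Vale.Agent.P283R.Dp

/-- **FTG** -/
theorem ftg21 : FTG := fun dwn X Y _ g _ p D d r ω η hg hp hs hd hdim hω hη gt ft =>
  ftg hg hp hs (hd.trans (Nat.le_add_right d r)) hdim hω (fun q ε B q0 ε0 hB hq tr => by
    obtain ⟨R, M, ε', -, -, ε1, dw⟩ := dwn D r q ε q0 ε0
    obtain ⟨Δ, h1, -, h2, -⟩ := dw X Y g p hg hp d ω η B hd hdim hω hη hB hq tr gt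
    exact ⟨ε', Δ, ε1, h1, h2⟩) ft

end Vale.Agent.P283R.Dp
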