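import Vale.Agent.P283R.Cf.All

/-!
# P283R, block DP: composition and weakening of the descent of the state
-/

open Set

noncomputable section

namespace Vale.Agent.P283R.Dp.G7

open Vale.Agent.P287D Vale.Agent.P297Z
open Cf

/-- for all sufficiently divisible `a`, `b` and all small `c` -/
def Ev (A : ℕ → ℕ → ℝ → Prop) : Prop := ∃ (q M : ℕ) (ε : ℝ), 0 < q ∧ 0 < M ∧ 0 < ε ∧
  ∀ a b c, q ∣ a → M ∣ b → 0 < b → c ≤ ε → A a b c

theorem Ev.and {A B : ℕ → ℕ → ℝ → Prop} (h : Ev A) (k : Ev B) :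
    Ev fun a b c => A a b c ∧ B a b c := by
  obtain ⟨q, M, ε, a1, a2, a3, H⟩ := h
  obtain ⟨q', M', ε', b1, b2, b3, K⟩ := k
  exact ⟨q * q', M * M', min ε ε', by positivity, by positivity, lt_min a3 b3,
    fun a b c u v w z => ⟨H a b c ((dvd_mul_right _ _).trans u) ((dvd_mul_right _ _).trans v) w
      (z.trans (min_le_left _ _)), K a b c ((dvd_mul_left _ _).trans u)
      ((dvd_mul_left _ _).trans v) w (z.trans (min_le_right _ _))⟩⟩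

theorem Ev.mono {A B : ℕ → ℕ → ℝ → Prop} (h : Ev A) (i : ∀ a b c, A a b c → B a b c) : Ev B :=
  let ⟨q, M, ε, a1, a2, a3, H⟩ := h
  ⟨q, M, ε, a1, a2, a3, fun a b c u v w z => i a b c (H a b c u v w z)⟩

theorem Ev.all {A : ℕ → ℕ → ℕ → ℝ → Prop} (n : ℕ) (h : ∀ i < n, Ev (A i)) :
    Ev fun a b c => ∀ i < n, A i a b c := by
  induction n with
  | zero => exact ⟨1, 1, 1, one_pos, one_pos, one_pos, fun _ _ _ _ _ _ _ _ z => absurd z (by omega)⟩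
  | succ n ih =>
    exact ((ih fun i z => h i (by omega)).and (h n (by omega))).mono fun a b c u i z =>
      (Nat.lt_succ_iff_lt_or_eq.1 z).elim (u.1 i) fun e => e ▸ u.2

theorem Ev.get {A : ℕ → ℕ → ℝ → Prop} (h : Ev A) :
    ∃ (q M : ℕ) (ε : ℝ), 0 < q ∧ 0 < M ∧ 0 < ε ∧ A q M ε :=
  let ⟨q, M, ε, a1, a2, a3, H⟩ := h
  ⟨q, M, ε, a1, a2, a3, H q M ε dvd_rfl dvd_rfl a2 le_rfl⟩

variable {k K' K : Type} [Field k] [Algebra ℂ k] [Field K] [Algebra ℂ K] [Field K'] [Algebra ℂ K']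
  [Algebra k K] {d n n' q q' M a b : ℕ} {ε ε' c : ℝ} {T : Set (Pl K)}

theorem weak (G : Go k d n q ε q' M ε' T) (u : q' ∣ a) (v : M ∣ b) (w : 0 < b) (z : c ≤ ε') :
    Go k d n q ε a b c T := by
  intro k₀ ι _ _ _ φ s t μ y x m h hy hx m0 h0 S
  obtain ⟨m₀, h₀, θ, a1, a2, a3, S₀, o, l⟩ := G k₀ ι φ s t μ y x m h hy hx m0 h0 S
  obtain ⟨a, rfl⟩ := u
  obtain ⟨b, rfl⟩ := v
  refine ⟨m₀, h₀, θ ^ b, a1, a2, pow_ne_zero _ a3, fun j P p => ⟨z.trans (S₀ j P p).1, fun e => ?_⟩,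
    fun P => ?_, l⟩
  · obtain ⟨e1, r, e2⟩ := (S₀ j P p).2 e
    exact ⟨e1, a * r, by push_cast; rw [← e2]; ring⟩
  · have n1 : (M : ℝ) ≠ 0 := Nat.cast_ne_zero.2 (Nat.pos_of_mul_pos_right w).ne'
    have n2 : (b : ℝ) ≠ 0 := Nat.cast_ne_zero.2 (Nat.pos_of_mul_pos_left w).ne'
    rw [o P, Pl.ord_pow]
    push_cast
    field_simp

theorem comp [Algebra k K'] [Algebra K' K] [IsScalarTower ℂ K' K] {q₁ M₁ q₂ M₂ : ℕ} {ε₁ ε₂ : ℝ}
    (tw : algebraMap k K = (algebraMap K' K).comp (algebraMap k K')) (hK : FF K n) (hK' : FF K' n')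
    (hM₁ : 0 < M₁) (hM₂ : 0 < M₂) (G₁ : Go K' n' n q ε q₁ M₁ ε₁ T)
    (G₂ : Go k d n' q₁ ε₁ q₂ M₂ ε₂ (dn K' T)) : Go k d n q ε q₂ (M₁ * M₂) ε₂ T := by
  have : IsScalarTower k K' K := .of_algebraMap_eq' tw
  intro k₀ ι _ _ _ φ v c μ y x m h hy hx m0 h0 S
  have ok : Ok (algebraMap K' K) := hK.ok (IsScalarTower.toAlgHom ℂ K' K)
  have mid : ∀ P w, Lies (algebraMap k K) P w →
      ∃ P', Lies (algebraMap K' K) P P' ∧ Lies (algebraMap k K') P' w := fun P w l => by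
    rw [tw] at l
    exact (ok P).elim (fun z => (l.not_trv (z.comp _)).elim) fun ⟨P', p⟩ => ⟨P', p, p.of_comp l⟩
  obtain ⟨y₁, D₁, hy₁, -⟩ := Cb.exists_cn hK'
  obtain ⟨m₁, h₁, θ₁, a1, a2, a3, S₁, o₁, l₁⟩ := G₁ k₀ ι ((algebraMap k K').comp φ) v c μ y₁ x m h
    ⟨D₁, hy₁⟩ hx m0 h0 (by rwa [← RingHom.comp_assoc, ← tw])
  obtain ⟨m₂, h₂, θ₂, b1, b2, b3, S₂, o₂, l₂⟩ := G₂ k₀ ι φ v c μ y y₁ m₁ h₁ hy ⟨D₁, hy₁⟩ a1 a2 S₁
  have b4 := (map_ne_zero (algebraMap K' K)).2 b3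
  refine ⟨m₂, h₂, θ₁ ^ M₂ * algebraMap K' K θ₂ ^ M₁, b1, b2,
    mul_ne_zero (pow_ne_zero _ a3) (pow_ne_zero _ b4), fun j w hw => ⟨(S₂ j w hw).1,
      fun ⟨P, p, l⟩ => (S₂ j w hw).2 ?_⟩, fun P => ?_, fun P w l => ?_⟩
  · obtain ⟨P', p1, p2⟩ := mid P w l
    exact ⟨P', ⟨P, p, p1⟩, p2⟩
  · have k1 : (P.ord (algebraMap K' K h₁) : ℝ) / m₁ =
        P.ord (algebraMap k K h₂) / m₂ + P.ord (algebraMap K' K θ₂) / M₂ := by
      rw [IsScalarTower.algebraMap_apply k K' K h₂]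
      rcases ok P with z | ⟨P', p⟩
      · simp [z.ord]
      · rw [p.ord h₁, p.ord (algebraMap k K' h₂), p.ord θ₂]
        push_cast
        rw [mul_div_assoc, o₂ P']
        ring
    have n1 : (M₁ : ℝ) ≠ 0 := Nat.cast_ne_zero.2 hM₁.ne'
    have n2 : (M₂ : ℝ) ≠ 0 := Nat.cast_ne_zero.2 hM₂.ne'
    rw [o₁ P, k1, Pl.ord_mul _ (pow_ne_zero _ a3) (pow_ne_zero _ b4), Pl.ord_pow, Pl.ord_pow]
    push_cast
    field_simp
    ring
  · obtain ⟨P', p1, p2⟩ := mid P w l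
    have e : ee P w = ee P P' * ee P' w := by
      rw [ee, ee, ee, IsScalarTower.algebraMap_apply k K' K w.t, p1.ord]
      push_cast
      rfl
    have e0 : 0 ≤ ee P P' := Int.cast_nonneg_iff.2 p1.e_pos.le
    rw [e, mul_assoc]
    exact (mul_le_mul_of_nonneg_left (l₂ P' w p2) e0).trans (l₁ P P' p1)

end Vale.Agent.P283R.Dp.G7
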