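import Vale.Agent.P283R.Dp.All
import Vale.Agent.P283R.Dp.Go7

/-!
# P283R, block DP: the descent of the state along contractions
-/

open CategoryTheory AlgebraicGeometry

namespace Vale.Agent.P283R.Tw

open Vale.Agent.P287D
open Vale.Agent.P289 (Pt St toRat val DForm dimension)
open Vale.Agent.P283M Vale.Agent.P283M.Stm Vale.Agent.P283M.Stm.Var
open Vale.Agent.P283M.Br (Dom plc ffd pl_of)
open Vale.Agent.P283R.Et (Pe)

variable {X X' Y Y' W : Var} {g : X.X ⟶ Y.X} {h : Y.X ⟶ W.X} {π : X'.X ⟶ X.X}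
  {J d e m q a b : ℕ} {ε c : ℝ}

/-- the state descends along `g` -/
def Gd (e d q : ℕ) (ε : ℝ) (g : X.X ⟶ Y.X) (a b : ℕ) (c : ℝ) : Prop :=
  ∀ p : Y.K →+* X.K, Pe g p → ∀ T : Set (Pl X.K), Cf.Pri X ⊆ T →
    (letI := p.toAlgebra; Cf.Go Y.K e d q ε a b c T)

theorem Gd.weak {q' M : ℕ} {ε' : ℝ} (G : Gd e d q ε g q' M ε') (u : q' ∣ a) (v : M ∣ b)
    (w : 0 < b) (z : c ≤ ε') : Gd e d q ε g a b c := fun p hp T s =>
  letI := p.toAlgebra
  Dp.G7.weak (G p hp T s) u v w z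

theorem gd_iso (cg : Contraction g) (hd : dimension X.str = e) (he : dimension Y.str = e) :
    Gd e e q ε g q 1 ε := by
  intro p hp T _
  have ac := Cf.Fto.acl cg hp
  let _ := p.toAlgebra
  have : IsScalarTower ℂ Y.K X.K := .of_algebraMap_eq fun c => (hp.cst cg.1 c).symm
  have := Pb.fin_of_ff (ffd Y e he) (ffd X e hd)
  exact Cf.iso Y.K X.K e q ε T (ffd Y e he) fun z => ac z (Algebra.IsAlgebraic.isAlgebraic z)

theorem gd_comp {q₁ M₁ M₂ : ℕ} {ε₁ : ℝ} (cg : Contraction g) (ch : Contraction h)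
    (hd : dimension X.str = d) (hm : dimension Y.str = m) (a1 : 0 < M₁) (a2 : 0 < M₂)
    (G₁ : Gd m d q ε g q₁ M₁ ε₁) (G₂ : Gd e m q₁ ε₁ h a M₂ c) :
    Gd e d q ε (g ≫ h) a (M₁ * M₂) c := by
  intro p hp T s
  have := cg.2.2.1
  have := ch.2.2.1
  obtain ⟨p₁, h₁⟩ := Cf.Fto.exists_pe g
  obtain ⟨p₂, h₂⟩ := Cf.Fto.exists_pe h
  let _ := p.toAlgebra
  let _ := p₁.toAlgebra
  let _ := p₂.toAlgebra
  have : IsScalarTower ℂ Y.K X.K := .of_algebraMap_eq fun c => (h₁.cst cg.1 c).symm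
  refine Dp.G7.comp (K' := Y.K) (Dp.pe_uniq88 hp (Ft.G58.pe_comp h₁ h₂)) (ffd X d hd)
    (ffd Y m hm) a1 a2 (G₁ p₁ h₁ T s) (G₂ p₂ h₂ _ fun w k => ?_)
  obtain ⟨P, u, l⟩ := (Cf.prm X Y g p₁ cg h₁).1 w k
  exact ⟨P, s u, l⟩

theorem gd_small {ι : X.K ≃+* X'.K} (cp : Contraction π) (pe : Pe π (ι : X.K →+* X'.K))
    (sm : ∀ E : X'.PrimeDiv, (E.1.map π).CodimOne) (hd : dimension X.str = d)
    (hd' : dimension X'.str = d) (b0 : 0 < b) (G : Gd e d q ε (π ≫ g) a b c) :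
    Gd e d q ε g a b c := by
  intro p hp T s
  let _ := p.toAlgebra
  let _ : Algebra Y.K X'.K := ((ι : X.K →+* X'.K).comp p).toAlgebra
  let _ : Algebra X'.K X.K := (ι.symm : X'.K →+* X.K).toAlgebra
  have : IsScalarTower ℂ X'.K X.K := .of_algebraMap_eq fun c =>
    (ι.symm_apply_eq.2 (pe.cst cp.1 c).symm).symm
  have su : Function.Surjective (algebraMap X'.K X.K) := ι.symm.surjective
  have k := Dp.G7.comp (k := Y.K) (K' := X'.K) (K := X.K)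
    (RingHom.ext fun z => (ι.symm_apply_apply _).symm) (ffd X d hd) (ffd X' d hd') one_pos b0
    (Cf.iso X'.K X.K d q ε T (ffd X' d hd') su)
    (G _ (Ft.G58.pe_comp pe hp) _ fun w ⟨E, k⟩ => ?_)
  · rwa [one_mul] at k
  have : Module.Finite X'.K X.K := Module.Finite.of_surjective (Algebra.linearMap _ _) su
  obtain ⟨P, l⟩ := Pb.up_fin (K' := X.K) w
  refine ⟨P, s ⟨⟨_, sm E⟩, (Cf.prm X' X π _ cp pe).2 w E.1 k P fun f => ?_⟩, l⟩
  refine .trans ?_ (l _).symm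
  exact iff_of_eq (congrArg (· ∈ P.ring) (ι.symm_apply_apply f).symm)

theorem gd_base {g' : X'.X ⟶ Y'.X} {j : Y'.X ⟶ Y.X} {ι : X.K →+* X'.K}
    (bc : Eb.Bc g j g' π ι) (sp : Sl.Spanned J ι)
    (hX : dimension X.str = d) (hY : dimension Y.str = e) (ε0 : 0 < ε) (c0 : 0 < c) (b0 : 0 < b)
    (G : Gd e d q ε g' a b c) :
    Gd e d q ε g (q * (b * (J + 1).factorial) * ⌈1 / (c / (J + 1 : ℕ))⌉₊.factorial)
      (b * (J + 1).factorial) (c / (J + 1 : ℕ)) := by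
  intro p hp T s
  have := bc.et
  have cg := Eb.con _ _ _ _ _ _ _ _ _ bc
  have := cg.2.2.1
  obtain ⟨p', hp'⟩ := Cf.Fto.exists_pe g'
  obtain ⟨r, hr⟩ := Et.exists_pe j
  have eq : Eb.Ep j r := ⟨bc.et, bc.ov, hr⟩
  have sq : ι.comp p = p'.comp r := Dp.pe_uniq88 (Ft.G58.pe_comp bc.ep.pe hp)
    (bc.pb.w ▸ Ft.G58.pe_comp hp' hr)
  let _ := p.toAlgebra
  let _ := p'.toAlgebra
  let _ := r.toAlgebra
  let _ := ι.toAlgebra
  have t0 : IsScalarTower ℂ Y.K X.K := .of_algebraMap_eq fun c => (hp.cst bc.con.1 c).symm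
  have t1 : IsScalarTower ℂ Y.K Y'.K := eq.tw
  have t2 : IsScalarTower ℂ X.K X'.K := bc.ep.tw
  have t3 : IsScalarTower ℂ Y'.K X'.K := .of_algebraMap_eq fun c => (hp'.cst cg.1 c).symm
  have hk := ffd Y e hY
  have hK := ffd X d hX
  have ac := Cf.Fto.acl bc.con hp
  have f1 : FiniteDimensional Y.K Y'.K := Pb.fin_of_ff hk (eq.ff hk)
  have f2 : FiniteDimensional X.K X'.K := Pb.fin_of_ff hK (bc.ep.ff hK)
  obtain ⟨v, hv⟩ := sp
  have sb : Submodule.span X.K (Set.range v) = ⊤ := eq_top_iff.2 fun a _ => by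
    obtain ⟨c, rfl⟩ := hv a
    exact Submodule.sum_mem _ fun i _ => Submodule.smul_mem _ (c i) (Submodule.subset_span ⟨i, rfl⟩)
  have r2 : Module.finrank X.K X'.K ≤ J + 1 :=
    ((finrank_le_of_span_eq_top sb).trans_eq (Fintype.card_fin J)).trans J.le_succ
  have s1 : ∀ a : Y.K, algebraMap Y'.K X'.K (algebraMap Y.K Y'.K a) =
      algebraMap X.K X'.K (algebraMap Y.K X.K a) := fun a => (DFunLike.congr_fun sq a).symm
  have : CharZero Y.K := charZero_of_injective_algebraMap (algebraMap ℂ Y.K).injective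
  refine Dp.G11.go hk hK (eq.ff hk) (bc.ep.ff hK) s1 ac r2
    ((Dp.rk61 Y.K X.K Y'.K X'.K s1 ac).trans r2) (T' := Cf.Pri X') (fun P' ⟨E, hE⟩ => ?_) ε0 c0 b0
    (G p' hp' _ le_rfl)
  obtain ⟨Q, i, -⟩ := pl_of plc E
  obtain rfl := Br.pl_eq i hE
  obtain ⟨y, P, -, a, l, o⟩ := bc.ep.pl i
  exact ⟨P, s ⟨y, a.dom⟩, l, o⟩

theorem go_tow {r : ℕ} {p : Y.K →+* X.K} {T : Set (Pl X.K)}
    (K : Cf.ForE fun k K _ _ _ _ _ => ∀ (d : ℕ) (T : Set (Pl K)), 1 ≤ d → Cf.Tow d r k K T →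
      FF k d ∧ FF K (d + r) ∧ Cf.Go k d (d + r) q ε a b c T) (cg : Contraction g) (hp : Pe g p)
    (e1 : 1 ≤ e) (s : Cf.Pri X ⊆ T) (tw : letI := p.toAlgebra; Cf.Tow e r Y.K X.K (Cf.Pri X)) :
    letI := p.toAlgebra; Cf.Go Y.K e (e + r) q ε a b c T := by
  let _ := p.toAlgebra
  have : IsScalarTower ℂ Y.K X.K := .of_algebraMap_eq fun c => (hp.cst cg.1 c).symm
  exact (K Y.K X.K e T e1 (Cf.Adp.tow_mono e r _ _ _ _ s tw)).2.2

end Vale.Agent.P283R.Tw
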