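import Vale.Agent.P283R.Dp.St2

/-!
# P283R, block DP: nested base changes, the induction
-/

open CategoryTheory AlgebraicGeometry

noncomputable section

namespace Vale.Agent.P283R

/-- the rows which the induction uses -/
structure Dp.Rows2 : Prop where
  fix : Dp.FIX
  mon : Dp.MON
  bir : Dp.BIR
  cps : Dp.CPS
  sml : Dp.SML
  cov : Dp.COV

namespace Dp.I58

open Vale.Agent.P287D Vale.Agent.P283M.Stm

variable {X Y : Var} {g : X.X ⟶ Y.X} {r d e q q' M M' : ℕ} {ε ε' ε'' : ℝ}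

theorem mon (H : Rows2) (c : Contraction g) (a : 0 < M') (b : M ∣ M') (l : ε'' ≤ ε')
    (s : Sz g e d q ε M ε') : Sz g e d q ε M' ε'' := fun p hp => by
  let _ := p.toAlgebra
  have : IsScalarTower ℂ Y.K X.K := .of_algebraMap_eq fun z => (hp.cst c.1 z).symm
  exact H.mon Y.K X.K e d q M M' ε ε' ε'' _ a b l (s p hp)

theorem fix (H : Rows2) (c : Contraction g) (a : 0 < M) (b : 0 < ε') (s : Sz g e d q ε M ε') :
    Sy g e d q ε (q * M * ⌈1 / ε'⌉₊.factorial) M ε' := fun p hp => by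
  let _ := p.toAlgebra
  have : IsScalarTower ℂ Y.K X.K := .of_algebraMap_eq fun z => (hp.cst c.1 z).symm
  exact H.fix Y.K X.K e d q M ε ε' _ a b (s p hp)

theorem of (s : Sy g e d q ε q' M ε') : Sz g e d q ε M ε' := fun p hp => by
  let _ := p.toAlgebra
  exact Gz.of (s p hp)

theorem tow (T : Cf.ForE fun k K _ _ _ _ _ => ∀ (d : ℕ) (T : Set (Pl K)), 1 ≤ d →
      Cf.Tow d r k K T → FF k d ∧ FF K (d + r) ∧ Cf.Go k d (d + r) q ε q' M ε' T)
    (c : Contraction g) (e1 : 1 ≤ e) {p : Y.K →+* X.K} (hp : Et.Pe g p)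
    (t : letI := p.toAlgebra; Cf.Tow e r Y.K X.K (Cf.Pri X)) :
    Sy g e (e + r) q ε q' M ε' := fun p' hp' => by
  obtain rfl := pe_uniq88 hp hp'
  let _ := p.toAlgebra
  have : IsScalarTower ℂ Y.K X.K := .of_algebraMap_eq fun z => (hp.cst c.1 z).symm
  exact (T Y.K X.K e _ e1 t).2.2

end Dp.I58

namespace Sl

open Var Vale.Agent.P287D Dp Dp.I58

theorem Steps.ctr {n : ℕ} {X Y : Var} {g : X.X ⟶ Y.X} (c : Steps n g) : Contraction g := by
  induction c with
  | one a _ => exact a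
  | comp _ _ a b => exact a.comp b
  | small _ a _ _ _ b => exact a.of_comp b
  | cover _ a _ _ _ _ _ _ _ => exact a

namespace I58

variable {X Y W : Var} {g : X.X ⟶ Y.X} {h : Y.X ⟶ W.X} {n r d e q M M' : ℕ} {ε ε' ε'' : ℝ}

/-- the state descends along `g` -/
def At (r q : ℕ) (ε : ℝ) (M : ℕ) (ε' : ℝ) {X Y : Var} (g : X.X ⟶ Y.X) : Prop :=
  ∀ (W : Var) (h : Y.X ⟶ W.X) (d e : ℕ) (ω : X.Form d), Surjective h → dimension X.str = d →
    dimension Y.str = e → d = e + r → 1 ≤ e → ω.Nonzero → FanoType (g ≫ h) ω →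
    Sz (X := X.o) (Y := Y.o) g e d q ε M ε'

/-- uniform constants -/
def Ok (n r q : ℕ) (ε : ℝ) (M : ℕ) (ε' : ℝ) : Prop :=
  0 < M ∧ 0 < ε' ∧ ∀ (X Y : Var) (g : X.X ⟶ Y.X), Steps n g → At r q ε M ε' g

/-- the statement -/
def All (n r : ℕ) : Prop := ∀ (q : ℕ) (ε : ℝ), 0 < q → 0 < ε → ∃ M ε', Ok n r q ε M ε'

theorem down (H : Rows2) (A : All n r) (c : Steps n g) (s : Surjective h) {ω : X.Form d}
    {η : Y.Form e} (hd : dimension X.str = d) (he : dimension Y.str = e) (de : d = e + r)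
    (e1 : 1 ≤ e) (a : ω.Nonzero) (b : η.Nonzero) (ft : FanoType (g ≫ h) ω) : FanoType h η := by
  have := c.ctr.2.2.1
  obtain ⟨p, hp⟩ := Cf.Fto.exists_pe (X := X.o) (Y := Y.o) g
  subst de
  refine (fanoType_iff h η).2 (ftg (X := X.o) (Y := Y.o) (Z := W.o) c.ctr hp s (by omega) hd a
    (fun q ε B q0 ε0 hB hq tr => ?_) ((fanoType_iff _ ω).1 ft))
  obtain ⟨M, ε', M0, ε1, K⟩ := A q ε q0 ε0
  obtain ⟨Δ, k1, -, k2, -⟩ := dwg64 ε0 (by positivity) M0 ε1 X.o Y.o g p c.ctr hp e ω η B e1 hd a b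
    hB hq tr (P283M.Br.ffd Y.o e he)
    (fix (X := X.o) (Y := Y.o) H c.ctr M0 ε1 (K X Y g c W h _ e ω s hd he rfl e1 a ft) p hp)
  exact ⟨ε', Δ, ε1, k1, k2⟩

theorem zero (H : Rows2) (n : ℕ) : All n 0 := fun q ε _ ε0 =>
  ⟨1, ε, one_pos, ε0, fun X Y g c W h d e ω _ hd he de _ _ _ => by
    obtain rfl : d = e := de
    exact of (H.bir X.o Y.o g d q ε c.ctr hd he)⟩

theorem step (H : Rows2) (r0 : 0 < r) (A : ∀ m < n, All m r) (B : ∀ s < r, All n s) : All n r := by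
  intro q ε q0 ε0
  obtain ⟨q₀, M₀, ε₀, -, a1, a2, T⟩ := Cf.tow r q ε q0 ε0
  obtain ⟨M₁, ε₁, b1, b2, C⟩ : ∃ M₁ ε₁, 0 < M₁ ∧ 0 < ε₁ ∧ ∀ m, m + 1 = n → ∃ M ε',
      Ok m r q ε M ε' ∧ M₁ = M * (m + 1).factorial ∧ ε₁ = ε' / (m + 1 : ℕ) := by
    rcases n with _ | n
    · exact ⟨1, 1, one_pos, one_pos, fun m k => by omega⟩
    · obtain ⟨M, ε', k⟩ := A n n.lt_succ_self q ε q0 ε0
      refine ⟨_, ε' / (n + 1 : ℕ), Nat.mul_pos k.1 (n + 1).factorial_pos,
        div_pos k.2.1 (by positivity), fun m u => ?_⟩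
      obtain rfl : m = n := by omega
      exact ⟨M, ε', k, rfl, rfl⟩
  have D : ∀ s : ℕ, ∃ M₂ ε₂, 0 < M₂ ∧ 0 < ε₂ ∧ (0 < s → s < r → ∃ M ε' M',
      Ok n s q ε M ε' ∧ Ok n (r - s) (q * M * ⌈1 / ε'⌉₊.factorial) ε' M' ε₂ ∧ M₂ = M * M') := by
    intro s
    by_cases k : 0 < s ∧ s < r
    · obtain ⟨M, ε', u⟩ := B s k.2 q ε q0 ε0
      have := u.1
      obtain ⟨M', ε₂, v⟩ := B (r - s) (by omega) (q * M * ⌈1 / ε'⌉₊.factorial) ε' (by positivity)
        u.2.1
      exact ⟨_, ε₂, Nat.mul_pos u.1 v.1, v.2.1, fun _ _ => ⟨M, ε', M', u, v, rfl⟩⟩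
    · exact ⟨1, 1, one_pos, one_pos, fun a b => (k ⟨a, b⟩).elim⟩
  choose M₂ ε₂ c1 c2 D using D
  have ne : (Finset.range r).Nonempty := ⟨0, Finset.mem_range.2 r0⟩
  obtain ⟨M, hM⟩ : ∃ M, M = M₀ * M₁ * ∏ s ∈ Finset.range r, M₂ s := ⟨_, rfl⟩
  obtain ⟨δ, hδ⟩ : ∃ δ, δ = min (min ε₀ ε₁) ((Finset.range r).inf' ne ε₂) := ⟨_, rfl⟩
  have M0 : 0 < M := hM ▸ Nat.mul_pos (Nat.mul_pos a1 b1) (Finset.prod_pos fun s _ => c1 s)
  have δ0 : 0 < δ := hδ ▸ lt_min (lt_min a2 b2) ((Finset.lt_inf'_iff ne).2 fun s _ => c2 s)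
  have key : ∀ (m : ℕ) (X Y : Var) (g : X.X ⟶ Y.X), Steps m g → m = n → At r q ε M δ g := by
    intro m X Y g c
    induction c with
    | @one _ X Y g a i =>
      intro _ W h d e ω _ hd he de e1 b ft
      rw [hd, he] at i
      obtain ⟨p, hp, t⟩ := tower_le a hd he (by exact_mod_cast i) b ft
      obtain ⟨r', k, t'⟩ := Cf.adp' g a.1 p hp hd he t
      obtain rfl : r' = r := by omega
      subst de
      exact mon (X := X.o) (Y := Y.o) H a M0 (hM ▸ (dvd_mul_right _ _).mul_right _)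
        (hδ ▸ (min_le_left _ _).trans (min_le_left _ _)) (of (tow T a e1 hp t'))
    | @comp _ X Y V g k c c' i i' =>
      rintro rfl W h d e ω s hd he de e1 b ft
      obtain ⟨m, η, hm, η0⟩ := exists_form Y
      have l1 := c'.ctr.dim_le hm he
      have l2 := c.ctr.dim_le hd hm
      have := c'.ctr.2.2.1
      rw [Category.assoc] at ft
      by_cases u : m = d
      · subst u
        have := H.cps X.o Y.o V.o g k e m m q q 1 M ε ε δ c.ctr c'.ctr hd hm one_pos M0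
          (H.bir X.o Y.o g m q ε c.ctr hd hm) (i' rfl W h m e η s hm he de e1 η0
            (down H (B 0 r0) c inferInstance hd hm rfl (by omega) b η0 ft))
        rwa [one_mul] at this
      by_cases v : m = e
      · subst v
        have := H.cps X.o Y.o V.o g k m m d q _ M 1 ε δ δ c.ctr c'.ctr hd hm M0 one_pos
          (fix (X := X.o) (Y := Y.o) H c.ctr M0 δ0 (i rfl W (k ≫ h) d m ω inferInstance hd hm de e1 b ft))
          (of (H.bir Y.o V.o k m _ δ c'.ctr hm he))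
        rwa [mul_one] at this
      have s1 : d - m < r := by omega
      obtain ⟨N, ε', N', o, o', e3⟩ := D (d - m) (by omega) s1
      refine mon (X := X.o) (Y := V.o) H (c.ctr.comp c'.ctr) M0
        (hM ▸ (Finset.dvd_prod_of_mem M₂ (Finset.mem_range.2 s1)).mul_left _)
        (hδ ▸ (min_le_right _ _).trans (Finset.inf'_le _ (Finset.mem_range.2 s1))) ?_
      rw [e3]
      exact H.cps X.o Y.o V.o g k e m d q _ N N' ε ε' _ c.ctr c'.ctr hd hm o.1 o'.1
        (fix (X := X.o) (Y := Y.o) H c.ctr o.1 o.2.1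
          (o.2.2 X Y g c W (k ≫ h) d m ω inferInstance hd hm (by omega) (by omega) b ft))
        (o'.2.2 Y V k c' W h m e η s hm he (by omega) e1 η0
          (down H (B _ s1) c inferInstance hd hm (by omega) (by omega) b η0 ft))
    | @small _ X' X Y π g p a hp sm c i =>
      intro u W h d e ω s hd he de e1 b ft
      obtain ⟨m, η, hm, η0⟩ := exists_form X'
      obtain rfl : d = m := Nat.cast_injective (hd.symm.trans ((dim_pull a hp).trans hm))
      have cg := a.of_comp c.ctr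
      have := cg.2.2.1
      refine H.sml X'.o X.o Y.o π g p e d q M ε δ a cg hp sm hd hm M0
        (i u W h d e η s hm he de e1 η0 ?_)
      rw [Category.assoc]
      exact (fanoType_iff _ η).2 (Ft.fta X'.o X.o W.o π (g ≫ h) p d ω η a.1 hp sm inferInstance
        (by omega) hd hm b η0 ((fanoType_iff _ ω).1 ft))
    | @cover m X' Y' X Y g g' π u ι cg et ov bc hι sp c _ =>
      intro k W h d e ω s hd he de e1 b ft
      obtain ⟨N, ε', o, e3, e4⟩ := C m k
      have : Etale π := MorphismProperty.of_isPullback bc.1.flip et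
      have Bc : Eb.Bc (X := X.o) (Z := Y.o) (Y := X'.o) (W := Y'.o) g u g' π ι :=
        ⟨cg, et, ov, bc.1, this, bc.2, hι⟩
      have := cg.2.2.1
      obtain ⟨p, hp⟩ := Et.exists_pe (W := Y'.o) (Z := Y.o) u
      have hd' : dimension X'.str = d := Eb.dim _ _ _ _ Bc.ep d hd
      have he' : dimension Y'.str = e := Eb.dim Y.o Y'.o u p ⟨et, ov, hp⟩ e he
      obtain ⟨m', η, hm, η0⟩ := exists_form X'
      obtain rfl : d = m' := Nat.cast_injective (hd'.symm.trans hm)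
      have f1 : FanoType g' η := fan_up Bc (by omega) hd b η0 ((fanoType_iff g ω).2
        (rel90 X.o Y.o W.o g h d ω this s (by omega) hd b ((fanoType_iff _ ω).1 ft)))
      refine mon (X := X.o) (Y := Y.o) H cg M0 (hM ▸ (dvd_mul_left _ _).mul_right _)
        (hδ ▸ (min_le_left _ _).trans (min_le_right _ _)) ?_
      rw [e3, e4]
      exact H.cov _ _ _ _ _ _ _ _ _ Bc (m + 1) e d q N ε ε' sp hd he ε0 o.2.1 o.1
        (o.2.2 X' Y' g' c Y' (𝟙 _) d e η inferInstance hd' he' de e1 η0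
          ((Category.comp_id g').symm ▸ f1))
  exact ⟨M, δ, M0, δ0, fun X Y g c => key n X Y g c rfl⟩

theorem all (H : Rows2) (n : ℕ) : ∀ r, All n r := by
  induction n using Nat.strong_induction_on with
  | _ n A =>
    intro r
    induction r using Nat.strong_induction_on with
    | _ r B =>
      exact r.eq_zero_or_pos.elim (fun k => k ▸ zero H n) fun k => step H k (fun m a => A m a r) B

end I58

end Sl

end Vale.Agent.P283R
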