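import Vale.Agent.P283R.Dp.St
import Vale.Agent.P287D.Pb.Up

/-!
# P283R, block DP, rows UP and RK
-/

open Set Polynomial

namespace Vale.Agent.P283R.Dp

open Vale.Agent.P287D

/-- **UP** -/
theorem up65 : UP := fun _ _ _ _ _ _ _ _ _ _ _ h w => Pb.up_alg h w

/-- **RK** -/
theorem rk65 : RK := by
  intro k K L F _ _ _ _ _ _ _ _ _ _ _ sq ac
  obtain ⟨α, hα⟩ := Field.exists_primitive_element k L
  have iα : IsIntegral k α := Algebra.IsIntegral.isIntegral α
  have iβ : IsIntegral K (algebraMap L F α) := Algebra.IsIntegral.isIntegral _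
  have ev : ∀ p : k[X], aeval (algebraMap L F α) (p.map (algebraMap k K)) =
      algebraMap L F (aeval α p) := fun p => by
    rw [aeval_def, eval₂_map, aeval_def, hom_eval₂]
    exact congrArg (fun φ => eval₂ φ _ p) (RingHom.ext fun a => (sq a).symm)
  have dv : minpoly K (algebraMap L F α) ∣ (minpoly k α).map (algebraMap k K) :=
    minpoly.dvd _ _ (by rw [ev, minpoly.aeval, map_zero])
  have li : minpoly K (algebraMap L F α) ∈ lifts (algebraMap k K) := by
    have := integralClosure.mem_lifts_of_monic_of_dvd_map K (minpoly.monic iα) (minpoly.monic iβ) dv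
    rw [lifts_iff_coeff_lifts] at this ⊢
    intro n
    obtain ⟨x, hx⟩ := this n
    exact hx ▸ ac _ (IsIntegral.isAlgebraic x.2)
  obtain ⟨g, hg, dg, mg⟩ := lifts_and_natDegree_eq_and_monic li (minpoly.monic iβ)
  have z : aeval α g = 0 := (algebraMap L F).injective (by
    rw [← ev, hg, minpoly.aeval, map_zero])
  calc Module.finrank k L = (minpoly k α).natDegree := by
        rw [← IntermediateField.adjoin.finrank iα, hα, IntermediateField.finrank_top']
    _ ≤ g.natDegree := natDegree_le_natDegree (minpoly.min k α mg z)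
    _ ≤ Module.finrank K F := dg ▸ minpoly.natDegree_le _

end Vale.Agent.P283R.Dp
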