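import Vale.Agent.P283R.Dp.St2
import Vale.Agent.P283R.Dp.Frr88
import Vale.Agent.P283R.Ft.Crp19

/-!
# P283R, block DP: small modifications (row `SMR`)
-/

open Set CategoryTheory AlgebraicGeometry

noncomputable section

namespace Vale.Agent.P283R.Dp

open Vale.Agent.P287D
open Vale.Agent.P283M Vale.Agent.P283M.Stm Vale.Agent.P283M.Stm.Var
open Vale.Agent.P283M.Br (ffd)

/-- **SMR** -/
theorem smr17 : SMR := by
  intro cmp X' X Y π g p e d q M ε ε' hπ hg pe hc hX hX' m0 s a ha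
  have h : Semi (p : X.K →+* X'.K) :=
    ⟨p.surjective, fun c => ⟨c, (pe.cst hπ.1 c).symm⟩, fun c => ⟨c, pe.cst hπ.1 c⟩⟩
  let _ := a.toAlgebra
  let _ := ((p : X.K →+* X'.K).comp a).toAlgebra
  let _ := (p.symm : X'.K →+* X.K).toAlgebra
  have t1 : IsScalarTower ℂ Y.K X'.K := .of_algebraMap_eq fun c =>
    ((congrArg p (ha.cst hg.1 c)).trans (pe.cst hπ.1 c)).symm
  have t2 : IsScalarTower ℂ X'.K X.K := .of_algebraMap_eq fun c =>
    p.eq_symm_apply.2 (pe.cst hπ.1 c)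
  have t3 : IsScalarTower Y.K X'.K X.K := .of_algebraMap_eq fun c =>
    (p.symm_apply_apply (a c)).symm
  have := cmp Y.K X'.K X.K e d d q q 1 M ε ε ε' (Cf.Pri X) (Cf.Pri X') (ffd X' d hX')
    (ffd X d hX) one_pos m0 (fun P' ⟨E, hE⟩ => by
      obtain ⟨P, rfl⟩ := h.pl.surjective P'
      refine ⟨P, ⟨⟨_, hc E⟩, Ft.C19.dom pe h hE⟩, fun x => ?_⟩
      obtain ⟨x, rfl⟩ := p.surjective x
      have : algebraMap X'.K X.K (p x) = x := p.symm_apply_apply x
      rw [this]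
      exact h.mem_pl)
    (Cf.iso X'.K X.K d q ε _ (ffd X' d hX') p.symm.surjective) (s _ (Ft.G58.pe_comp pe ha))
  rwa [one_mul] at this

end Vale.Agent.P283R.Dp
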