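import Vale.Agent.P283R.Ft.All2
import Vale.Agent.P283R.Sl.Dp

/-!
# P283R, block DP: towers of conics after a finite extension of the base field, the rows
-/

open Set CategoryTheory AlgebraicGeometry

noncomputable section

namespace Vale.Agent.P283R.Dp

open Vale.Agent.P287D
open Cf (Tow Go Acl ForE ForC Pri Triv Pull TOW CHT PRM)

/-- a tower of conics `F / L` over a finite extension `L / k`, `F / K` is finite -/
def Gt (D d r : ℕ) (k K : Type) [Field k] [Algebra ℂ k] [Field K] [Algebra ℂ K] [Algebra k K]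
    (T : Set (Pl K)) : Prop :=
  FF k d ∧ FF K (d + r) ∧ Acl k K ∧ ∃ (L F : Type) (_ : Field L) (_ : Algebra ℂ L) (_ : Field F)
    (_ : Algebra ℂ F) (_ : Algebra k L) (_ : Algebra K F) (_ : Algebra L F)
    (_ : IsScalarTower ℂ k L) (_ : IsScalarTower ℂ K F) (_ : IsScalarTower ℂ L F)
    (T' : Set (Pl F)),
    (∀ a : k, algebraMap L F (algebraMap k L a) = algebraMap K F (algebraMap k K a)) ∧
    FiniteDimensional k L ∧ FiniteDimensional K F ∧ Module.finrank k L ≤ D ∧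
    Module.finrank K F ≤ D ∧
    (∀ P' ∈ T', ∃ P ∈ T, Lies (algebraMap K F) P' P ∧ P'.ord (algebraMap K F P.t) = 1) ∧
    Tow d r L F T'

/-- **UP**: places extend -/
def UP : Prop := ForE fun k K _ _ _ _ _ => ∀ d r : ℕ, FF k d → FF K (d + r) →
  ∀ w : Pl k, ∃ P : Pl K, Lies (algebraMap k K) P w

/-- **RK**: the degree of the constants -/
def RK : Prop := ∀ (k K L F : Type) [Field k] [CharZero k] [Field K] [Field L] [Field F]
  [Algebra k K] [Algebra k L] [Algebra K F] [Algebra L F] [FiniteDimensional k L]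
  [FiniteDimensional K F],
    (∀ a : k, algebraMap L F (algebraMap k L a) = algebraMap K F (algebraMap k K a)) →
    Acl k K → Module.finrank k L ≤ Module.finrank K F

/-- **TOG**: the state descends -/
def TOG : Prop := ∀ (D r q : ℕ) (ε : ℝ), 0 < q → 0 < ε → ∃ (q' M : ℕ) (ε' : ℝ), 0 < q' ∧ 0 < M ∧
  0 < ε' ∧ ForE fun k K _ _ _ _ _ => ∀ (d : ℕ) (T : Set (Pl K)), 1 ≤ d → Gt D d r k K T →
    FF k d ∧ FF K (d + r) ∧ Go k d (d + r) q ε q' M ε' T

/-- **GOD** -/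
def GOD : Prop := UP → TOW → TOG

section schemes

open Vale.Agent.P289 (Pt DForm dimension)
open Vale.Agent.P283M.Stm Vale.Agent.P283M.Stm.Var
open Vale.Agent.P283R.Et (Pe)

/-- **DWN**: the pair on the base -/
def DWN : Prop := ∀ (D r q : ℕ) (ε : ℝ), 0 < q → 0 < ε → ∃ (R : Finset ℚ) (M : ℕ) (ε' : ℝ),
  (∀ a ∈ R, 0 ≤ a ∧ a ≤ 1) ∧ 0 < M ∧ 0 < ε' ∧ ForC fun X Y g p => ∀ (d : ℕ)
    (ω : DForm ℂ X.K (d + r)) (η : DForm ℂ Y.K d) (B : X.QDiv), 1 ≤ d →
    dimension X.str = (d + r : ℕ) → ω.Nonzero → η.Nonzero → Pair (ε ≤ ·) ⊤ ω B →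
    (∀ E, ∃ z : ℤ, q * B E = z) → Triv g (logCan ω B) →
    (letI := p.toAlgebra; Gt D d r Y.K X.K (Pri X)) → ∃ Δ : Y.QDiv, Pair (ε' ≤ ·) ⊤ η Δ ∧
      (∀ E, Δ E ≠ 0 → Δ E ∈ R) ∧ Pull g p (logCan ω B) (logCan η Δ) ∧
      ∀ (Z : Var) (h : Y.X ⟶ Z.X) (z : Pt Z.X) (n : ℕ), 0 < n → M ∣ n →
        HasKltComplement h η Δ n z → HasKltComplement (g ≫ h) ω B n z

/-- **DWG** -/
def DWG : Prop := TOG → CHT → PRM → DWN

/-- **FTD**: the base is of Fano type -/
def FTD : Prop := ∀ (X Y Z : Var) (g : X.X ⟶ Y.X) (h : Y.X ⟶ Z.X) (p : Y.K →+* X.K) (D d r : ℕ)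
  (ω : DForm ℂ X.K (d + r)) (η : DForm ℂ Y.K d), Contraction g → Pe g p → Surjective h → 1 ≤ d →
    dimension X.str = (d + r : ℕ) → ω.Nonzero → η.Nonzero →
    (letI := p.toAlgebra; Gt D d r Y.K X.K (Pri X)) → FanoType (g ≫ h) ω → FanoType h η

/-- **FTG** -/
def FTG : Prop := DWN → FTD

/-- **REL**: Fano type over the base implies Fano type over the middle -/
def REL : Prop := ∀ (X Y Z : Var) (g : X.X ⟶ Y.X) (h : Y.X ⟶ Z.X) (d : ℕ) (ω : DForm ℂ X.K d),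
  Surjective g → Surjective h → 1 ≤ d → dimension X.str = d → ω.Nonzero → FanoType (g ≫ h) ω →
    FanoType g ω

/-- **FRO**: the square of the fields of a base change -/
def FRO : Prop := Eb.ForB fun X Y X' Y' g _ g' _ ι => ∀ (p : Y.K →+* X.K) (p' : Y'.K →+* X'.K)
  (D d r : ℕ), Pe g p → Pe g' p' → Sl.Spanned D ι → dimension X.str = (d + r : ℕ) →
    dimension Y.str = d → (letI := p'.toAlgebra; Tow d r Y'.K X'.K (Pri X')) →
    (letI := p.toAlgebra; Gt D d r Y.K X.K (Pri X))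

/-- **FRR** -/
def FRR : Prop := RK → FRO

end schemes

end Vale.Agent.P283R.Dp
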