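import Vale.Agent.P283R.Dp.All
import Vale.Agent.P283R.Sl.Dq

/-!
# P283R, block DP: nested base changes, the rows
-/

open Set CategoryTheory AlgebraicGeometry

noncomputable section

namespace Vale.Agent.P283R.Dp

open Vale.Agent.P287D
open Cf (Go Sta ee dn ForE ForC Pri)

/-- `Go` without the coefficients on the base -/
def Gz (k : Type) {K : Type} [Field k] [Algebra ℂ k] [Field K] [Algebra ℂ K] [Algebra k K]
    (d n q : ℕ) (ε : ℝ) (M : ℕ) (ε' : ℝ) (T : Set (Pl K)) : Prop :=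
  ∀ (k₀ ι : Type) [Field k₀] [Finite ι] [Nonempty ι] (φ : k₀ →+* k) (v : ι → Finset k₀)
    (c : ι → k₀) (μ : ι → ℕ) (y : Fin d → k) (x : Fin n → K) (m : ℕ) (h : K), Frm y → Frm x →
    0 < m → h ≠ 0 → Sta ((algebraMap k K).comp φ) q ε T v c μ x m h →
    ∃ (m₀ : ℕ) (h₀ : k) (θ : K), 0 < m₀ ∧ h₀ ≠ 0 ∧ θ ≠ 0 ∧ Sta φ 1 ε' ∅ v c μ y m₀ h₀ ∧
      (∀ P : Pl K, (P.ord h : ℝ) / m = P.ord (algebraMap k K h₀) / m₀ + P.ord θ / M) ∧
      ∀ P w, Lies (algebraMap k K) P w → ee P w * ld y m₀ h₀ w ≤ ld x m h P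

theorem Gz.of {k K : Type} [Field k] [Algebra ℂ k] [Field K] [Algebra ℂ K] [Algebra k K]
    {d n q q' M : ℕ} {ε ε' : ℝ} {T : Set (Pl K)} (h : Go k d n q ε q' M ε' T) :
    Gz k d n q ε M ε' T := fun k₀ ι _ _ _ φ v c μ y x m a b1 b2 b3 b4 b5 =>
  let ⟨m₀, h₀, θ, c1, c2, c3, c4, c5⟩ := h k₀ ι φ v c μ y x m a b1 b2 b3 b4 b5
  ⟨m₀, h₀, θ, c1, c2, c3, fun j P k => ⟨(c4 j P k).1, False.elim⟩, c5⟩

/-- **FIX**: the coefficients on the base -/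
def FIX : Prop := ForE fun k K _ _ _ _ _ => ∀ (d n q M : ℕ) (ε ε' : ℝ) (T : Set (Pl K)), 0 < M →
  0 < ε' → Gz k d n q ε M ε' T → Go k d n q ε (q * M * ⌈1 / ε'⌉₊.factorial) M ε' T

/-- **MON**: worse constants -/
def MON : Prop := ForE fun k K _ _ _ _ _ => ∀ (d n q M M' : ℕ) (ε ε' ε'' : ℝ) (T : Set (Pl K)),
  0 < M' → M ∣ M' → ε'' ≤ ε' → Gz k d n q ε M ε' T → Gz k d n q ε M' ε'' T

/-- **CMP**: two floors -/
def CMP : Prop := ∀ (k K' K : Type) [Field k] [Algebra ℂ k] [Field K'] [Algebra ℂ K'] [Field K]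
  [Algebra ℂ K] [Algebra k K'] [Algebra K' K] [Algebra k K] [IsScalarTower ℂ k K']
  [IsScalarTower ℂ K' K] [IsScalarTower k K' K] (d n' n q q₁ M₁ M₂ : ℕ) (ε ε₁ ε₂ : ℝ)
  (T : Set (Pl K)) (T' : Set (Pl K')), FF K' n' → FF K n → 0 < M₁ → 0 < M₂ → T' ⊆ dn K' T →
    Go K' n' n q ε q₁ M₁ ε₁ T → Gz k d n' q₁ ε₁ M₂ ε₂ T' → Gz k d n q ε (M₁ * M₂) ε₂ T

section schemes

open Vale.Agent.P289 (Pt DForm dimension)
open Vale.Agent.P283M.Stm Vale.Agent.P283M.Stm.Var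
open Vale.Agent.P283R.Et (Pe)

variable {X Y : Var}

/-- `Go` for a morphism -/
def Sy (g : X.X ⟶ Y.X) (e d q : ℕ) (ε : ℝ) (q' M : ℕ) (ε' : ℝ) : Prop :=
  ∀ p : Y.K →+* X.K, Pe g p → (letI := p.toAlgebra; Go Y.K e d q ε q' M ε' (Pri X))

/-- `Gz` for a morphism -/
def Sz (g : X.X ⟶ Y.X) (e d q : ℕ) (ε : ℝ) (M : ℕ) (ε' : ℝ) : Prop :=
  ∀ p : Y.K →+* X.K, Pe g p → (letI := p.toAlgebra; Gz Y.K e d q ε M ε' (Pri X))

/-- **BIR**: birational contractions -/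
def BIR : Prop := ∀ (X Y : Var) (g : X.X ⟶ Y.X) (d q : ℕ) (ε : ℝ), Contraction g →
  dimension X.str = d → dimension Y.str = d → Sy g d d q ε q 1 ε

/-- **CPS**: compositions -/
def CPS : Prop := ∀ (X Y W : Var) (g : X.X ⟶ Y.X) (h : Y.X ⟶ W.X) (e m d q q₁ M₁ M₂ : ℕ)
  (ε ε₁ ε₂ : ℝ), Contraction g → Contraction h → dimension X.str = d → dimension Y.str = m →
    0 < M₁ → 0 < M₂ → Sy g m d q ε q₁ M₁ ε₁ → Sz h e m q₁ ε₁ M₂ ε₂ →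
    Sz (g ≫ h) e d q ε (M₁ * M₂) ε₂

/-- **SML**: small modifications -/
def SML : Prop := ∀ (X' X Y : Var) (π : X'.X ⟶ X.X) (g : X.X ⟶ Y.X) (p : X.K ≃+* X'.K)
  (e d q M : ℕ) (ε ε' : ℝ), Contraction π → Contraction g → Pe π (p : X.K →+* X'.K) →
    (∀ E' : X'.PrimeDiv, (E'.1.map π).CodimOne) → dimension X.str = d → dimension X'.str = d →
    0 < M → Sz (π ≫ g) e d q ε M ε' → Sz g e d q ε M ε'

/-- **COV**: étale base changes -/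
def COV : Prop := Eb.ForB fun X Y _ _ g _ g' _ ι => ∀ (D e d q M : ℕ) (ε ε' : ℝ), Sl.Spanned D ι →
  dimension X.str = d → dimension Y.str = e → 0 < ε → 0 < ε' → 0 < M → Sz g' e d q ε M ε' →
    Sz g e d q ε (M * D.factorial) (ε' / D)

/-- **CPR** -/
def CPR : Prop := CMP → CPS

/-- **SMR** -/
def SMR : Prop := CMP → SML

/-- **COR** -/
def COR : Prop := FIX → COV

end schemes

end Vale.Agent.P283R.Dp
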