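import Vale.Agent.P283R.Dp.Gd7
import Vale.Agent.P283R.Sl.Tw

/-!
# P283R, block DP: the state descends along the iterated towers
-/

open CategoryTheory AlgebraicGeometry

namespace Vale.Agent.P283R.Tw

open Sl hiding Tower
open Sl.Var Vale.Agent.P287D Dp.G7
open Vale.Agent.P283M.Br (ffd plc pl_of)

variable {X X' Y Y' W : Var} {g : X.X ⟶ Y.X} {h : Y.X ⟶ W.X} {π : X'.X ⟶ X.X}
  {J d e m q a b : ℕ} {ε c : ℝ}

theorem Tower.ctr (t : Tower J g) : Contraction g := by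
  induction t with
  | one a _ => exact a
  | comp _ _ a b => exact a.comp b
  | small _ a _ _ _ b => exact a.of_comp b
  | base _ a => exact a

/-- the state descends along `g` -/
abbrev Gs (e d q : ℕ) (ε : ℝ) (g : X.X ⟶ Y.X) (a b : ℕ) (c : ℝ) : Prop :=
  Gd (X := X.o) (Y := Y.o) e d q ε g a b c

theorem gs_iso (cg : Contraction g) (hd : dimension X.str = e) (he : dimension Y.str = e) :
    Gs e e q ε g q 1 ε := gd_iso (X := X.o) (Y := Y.o) cg hd he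

theorem gs_comp {q₁ M₁ M₂ : ℕ} {ε₁ : ℝ} (cg : Contraction g) (ch : Contraction h)
    (hd : dimension X.str = d) (hm : dimension Y.str = m) (a1 : 0 < M₁) (a2 : 0 < M₂)
    (G₁ : Gs m d q ε g q₁ M₁ ε₁) (G₂ : Gs e m q₁ ε₁ h a M₂ c) :
    Gs e d q ε (g ≫ h) a (M₁ * M₂) c :=
  gd_comp (X := X.o) (Y := Y.o) (W := W.o) cg ch hd hm a1 a2 G₁ G₂

theorem gd_fano {ω : X.Form d} {η : Y.Form e} (cg : Contraction g) (s : Surjective h)
    (hd : dimension X.str = d) (he : dimension Y.str = e) (e1 : 1 ≤ e) (ω0 : ω.Nonzero)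
    (η0 : η.Nonzero) (G : ∀ (q : ℕ) (ε : ℝ), 0 < q → 0 < ε → ∃ (a b : ℕ) (c : ℝ),
      0 < a ∧ 0 < b ∧ 0 < c ∧ Gs e d q ε g a b c) (ft : FanoType (g ≫ h) ω) : FanoType h η := by
  have := cg.2.2.1
  obtain ⟨p, hp⟩ := Cf.Fto.exists_pe (X := X.o) (Y := Y.o) g
  obtain ⟨r, rfl⟩ := Nat.exists_eq_add_of_le (cg.dim_le hd he)
  refine (fanoType_iff h η).2 (Dp.ftg (X := X.o) (Y := Y.o) (Z := W.o) cg hp s (by omega) hd ω0
    (fun q ε B q0 ε0 u v w => ?_) ((fanoType_iff _ ω).1 ft))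
  obtain ⟨a, b, c, a0, b0, c0, k⟩ := G q ε q0 ε0
  obtain ⟨Δ, k1, -, k2, -⟩ := Dp.dwg64 ε0 a0 b0 c0 X.o Y.o g p cg hp e ω η B e1 hd ω0 η0 u v w
    (ffd Y.o e he) (k p hp _ le_rfl)
  exact ⟨c, Δ, c0, k1, k2⟩

/-- the state descends if `X` is of Fano type over some base -/
def Cn (r q : ℕ) (ε : ℝ) (g : X.X ⟶ Y.X) (a b : ℕ) (c : ℝ) : Prop :=
  ∀ (W : Var) (h : Y.X ⟶ W.X) (d e : ℕ) (ω : X.Form d), Surjective h → dimension X.str = d →
    dimension Y.str = e → 1 ≤ e → ω.Nonzero → FanoType (g ≫ h) ω → d = e + r →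
      Gs e d q ε g a b c

/-- uniform constants -/
def Un (J r : ℕ) : Prop := ∀ (q : ℕ) (ε : ℝ), 0 < q → 0 < ε →
  Ev fun a b c => ∀ (X Y : Var) (g : X.X ⟶ Y.X), Tower J g → Cn r q ε g a b c

theorem aux {r : ℕ} (b0 : 0 < b)
    (E1 : ∀ (X Y : Var) (g : X.X ⟶ Y.X), Contraction g → dimension X.str ≤ dimension Y.str + 1 →
      Cn r q ε g a b c)
    (E2 : ∀ i < r, 0 < i → ∀ (X Y W : Var) (g : X.X ⟶ Y.X) (h : Y.X ⟶ W.X) (m : ℕ), Tower J g →
      Tower J h → dimension Y.str = m → dimension X.str = (m + i : ℕ) → Cn r q ε (g ≫ h) a b c)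
    (E3 : ∀ J', J' + 1 = J → ∀ (X Y X' Y' : Var) g j g' π (ι : X.K →+* X'.K),
      Eb.Bc (X := X.o) (Z := Y.o) (Y := X'.o) (W := Y'.o) g j g' π ι → Spanned J' ι →
      Tower J' g' → Cn r q ε g a b c)
    {I : ℕ} (t : Tower I g) : I = J → Cn r q ε g a b c := by
  induction t with
  | one u v => exact fun _ => E1 _ _ _ u v
  | @comp I X Y T g k t t' i i' =>
    rintro rfl W h d e ω s hd he e1 ω0 ft de
    obtain ⟨m, η, hm, η0⟩ := exists_form Y
    have m1 := t'.ctr.dim_le hm he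
    have m2 := t.ctr.dim_le hd hm
    have := t'.ctr.2.2.1
    rcases m2.eq_or_lt with rfl | m3
    · have k := gs_comp t.ctr t'.ctr hd hm one_pos b0 (gs_iso t.ctr hd hm)
        (i' rfl W h m e η s hm he e1 η0 (gd_fano t.ctr inferInstance hd hm (e1.trans m1) ω0 η0
          (fun q ε q0 ε0 => ⟨q, 1, ε, q0, one_pos, ε0, gs_iso t.ctr hd hm⟩)
          (Category.assoc g k h ▸ ft)) de)
      rwa [one_mul] at k
    rcases m1.eq_or_lt with rfl | m4
    · have k := gs_comp t.ctr t'.ctr hd hm b0 one_pos (i rfl W (k ≫ h) d e ω inferInstance hd hm e1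
        ω0 (Category.assoc g k h ▸ ft) de) (gs_iso t'.ctr hm he)
      rwa [mul_one] at k
    exact E2 (d - m) (by omega) (by omega) X Y T g k m t t' hm
      (hd.trans (congrArg _ (by omega))) W h d e ω s hd he e1 ω0 ft de
  | @small I X' X Y π g p u hp sm t i =>
    rintro rfl W h d e ω s hd he e1 ω0 ft de
    obtain ⟨m, η, hm, η0⟩ := exists_form X'
    obtain rfl : d = m := Nat.cast_injective (hd.symm.trans ((dim_pull u hp).trans hm))
    have cg := u.of_comp t.ctr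
    have := cg.2.2.1
    refine gd_small (X := X.o) (X' := X'.o) (Y := Y.o) u hp sm hd hm b0 (i rfl W h d e η s hm he e1 η0 ?_ de)
    rw [Category.assoc]
    exact (fanoType_iff _ η).2 (Ft.fta X'.o X.o W.o π (g ≫ h) p d ω η u.1 hp sm inferInstance
      (e1.trans (cg.dim_le hd he)) hd hm ω0 η0 ((fanoType_iff _ ω).1 ft))
  | @base I X' Y' X Y g g' π j v u et ov pb sp t _ =>
    intro k
    have : Etale π := MorphismProperty.of_isPullback pb.flip et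
    obtain ⟨ι, pe⟩ := Et.exists_pe (W := X'.o) (Z := X.o) π
    refine E3 I k X Y X' Y' g j g' π ι ⟨u, et, ov, pb, this, ?_, pe⟩ ⟨v, fun z => ?_⟩ t
    · change π ≫ X.str = X'.str
      rw [← u.1, ← Category.assoc, pb.w, Category.assoc, ov, t.ctr.1]
    · obtain ⟨c, rfl⟩ := sp z
      exact ⟨fun l => toRat (c l), Finset.sum_congr rfl fun l _ =>
        congrArg (· * v l) (pe _ (c l)).symm⟩

theorem step (H : ∀ J', J' + 1 = J → ∀ r, Un J' r) (r : ℕ) : Un J r := by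
  induction r using Nat.strong_induction_on with | _ r ih => ?_
  intro q ε q0 ε0
  have E0 : Ev fun _ b _ => 0 < b := ⟨1, 1, 1, one_pos, one_pos, one_pos, fun _ _ _ _ _ u _ => u⟩
  have E1 : Ev fun a b c => ∀ (X Y : Var) (g : X.X ⟶ Y.X), Contraction g →
      dimension X.str ≤ dimension Y.str + 1 → Cn r q ε g a b c := by
    obtain ⟨q', M, ε', a1, a2, a3, K⟩ := Cf.tow r q ε q0 ε0
    refine ⟨q', M, ε', a1, a2, a3, fun a b c u v w z X Y g cg i W h d e ω _ hd he e1 ω0 ft de =>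
      Gd.weak (fun p hp T s => ?_) u v w z⟩
    rw [hd, he] at i
    obtain ⟨p', hp', tw⟩ := tower_le cg hd he (by exact_mod_cast i) ω0 ft
    obtain rfl := Dp.pe_uniq88 (W := X.o) (Z := Y.o) hp hp'
    obtain ⟨r', k, tw⟩ := Cf.adp' g cg.1 p hp hd he tw
    obtain rfl : r = r' := by omega
    subst de
    exact go_tow (X := X.o) (Y := Y.o) K cg hp e1 s tw
  have E2 : Ev fun a b c => ∀ i < r, 0 < i → ∀ (X Y W : Var) (g : X.X ⟶ Y.X) (h : Y.X ⟶ W.X)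
      (m : ℕ), Tower J g → Tower J h → dimension Y.str = m → dimension X.str = (m + i : ℕ) →
      Cn r q ε (g ≫ h) a b c := Ev.all r fun i ir => by
    rcases i.eq_zero_or_pos with rfl | i0
    · exact E0.mono fun _ _ _ _ z => absurd z (lt_irrefl _)
    obtain ⟨q₁, M₁, ε₁, a1, a2, a3, K₁⟩ := (ih i ir q ε q0 ε0).get
    obtain ⟨q₂, M₂, ε₂, b1, b2, b3, K₂⟩ := (ih (r - i) (by omega) q₁ ε₁ a1 a3).get
    refine ⟨q₂, M₁ * M₂, ε₂, b1, by positivity, b3,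
      fun a b c u v w z _ X Y T g k m t t' hm hx W h d e ω s hd he e1 ω0 ft de => ?_⟩
    obtain ⟨m', η, hm', η0⟩ := exists_form Y
    obtain rfl : m = m' := Nat.cast_injective (hm.symm.trans hm')
    have dm : d = m + i := Nat.cast_injective (hd.symm.trans hx)
    have m1 := e1.trans (t'.ctr.dim_le hm he)
    have := t'.ctr.2.2.1
    rw [Category.assoc] at ft
    refine (gs_comp t.ctr t'.ctr hd hm a2 b2
      (K₁ X Y g t W (k ≫ h) d m ω inferInstance hd hm m1 ω0 ft dm)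
      (K₂ Y T k t' W h m e η s hm he e1 η0 (gd_fano t.ctr inferInstance hd hm m1 ω0 η0
        (fun q ε q0 ε0 => ?_) ft) (by omega))).weak u v w z
    obtain ⟨a, b, c, a0, b0, c0, K⟩ := (ih i ir q ε q0 ε0).get
    exact ⟨a, b, c, a0, b0, c0, K X Y g t W (k ≫ h) d m ω inferInstance hd hm m1 ω0 ft dm⟩
  have E3 : Ev fun a b c => ∀ J', J' + 1 = J → ∀ (X Y X' Y' : Var) g j g' π (ι : X.K →+* X'.K),
      Eb.Bc (X := X.o) (Z := Y.o) (Y := X'.o) (W := Y'.o) g j g' π ι → Spanned J' ι →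
      Tower J' g' → Cn r q ε g a b c := by
    rcases J with _ | I
    · exact E0.mono fun _ _ _ _ _ z => absurd z (Nat.succ_ne_zero _)
    obtain ⟨q₁, M₁, ε₁, a1, a2, a3, K⟩ := (H I rfl r q ε q0 ε0).get
    refine ⟨q * (M₁ * (I + 1).factorial) * ⌈1 / (ε₁ / (I + 1 : ℕ))⌉₊.factorial,
      M₁ * (I + 1).factorial, ε₁ / (I + 1 : ℕ), by positivity, by positivity, by positivity,
      fun a b c u v w z J' k X Y X' Y' g j g' π ι bc sp t W h d e ω s hd he e1 ω0 ft de => ?_⟩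
    obtain rfl : J' = I := by omega
    have := bc.et
    have d1 := e1.trans (Contraction.dim_le (g := g) bc.con hd he)
    obtain ⟨l, hl⟩ := Et.exists_pe (W := Y'.o) (Z := Y.o) j
    have hd' : dimension X'.str = d := Eb.dim _ _ _ _ bc.ep d hd
    have he' : dimension Y'.str = e := Eb.dim Y.o Y'.o j l ⟨bc.et, bc.ov, hl⟩ e he
    obtain ⟨m, η, hm, η0⟩ := exists_form X'
    obtain rfl : d = m := Nat.cast_injective (hd'.symm.trans hm)
    have f1 : FanoType g ω := (fanoType_iff g ω).2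
      (Dp.rel90 X.o Y.o W.o g h d ω bc.con.2.2.1 s d1 hd ω0 ((fanoType_iff _ ω).1 ft))
    exact (gd_base bc sp hd he ε0 a3 a2 (K X' Y' g' t Y' (𝟙 _) d e η inferInstance hm he' e1 η0
      ((Category.comp_id g').symm ▸ fan_up bc d1 hd ω0 η0 f1) de)).weak u v w z
  exact (E0.and (E1.and (E2.and E3))).mono fun a b c u X Y g t =>
    aux u.1 u.2.1 u.2.2.1 u.2.2.2 t rfl

theorem un (J : ℕ) : ∀ r, Un J r := by
  induction J with
  | zero => exact step fun _ z => absurd z (Nat.succ_ne_zero _)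
  | succ J ih => exact step fun _ z => Nat.succ_injective z ▸ ih

variable {C : ∀ (d : ℕ) (X Z : Var), (X.X ⟶ Z.X) → X.Form d → X.QDiv → Pt Z.X → Prop}

/-- the wrapper -/
theorem on_tw (J : ℕ → ℕ) (h : On C) : On fun d X Z f ω B z => FanoType f ω ∧
    ∃ (e : ℕ) (Y : Var) (g : X.X ⟶ Y.X) (h : Y.X ⟶ Z.X) (η : Y.Form e),
      1 ≤ e ∧ dimension Y.str = e ∧ η.Nonzero ∧ g ≫ h = f ∧ Tower (J d) g ∧ TrivialOver g ω B ∧
      ∀ (p : Y.K →+* X.K) (Δ : Y.QDiv), Et.Pe (W := X.o) (Z := Y.o) g p → FanoType h η →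
        Pair (0 < ·) (all Y.X) η Δ →
        Cf.Pull (X := X.o) (Y := Y.o) g p (logCan ω B) (logCan η Δ) → C e Y Z h η Δ z := by
  intro d hd ε hε R hR
  have hq : 0 < ∏ a ∈ R, a.den := Finset.prod_pos fun a _ => a.den_pos
  obtain ⟨q', M, ε', a1, a2, a3, H⟩ := (Ev.all (d + 1) fun r _ => un (J d) r _ ε hq hε).get
  choose n hn K using fun e => h (e + 1) (Nat.le_add_left _ _) ε' a3 _ (Dp.rng64 a1)
  have N0 : 0 < M * ∏ x ∈ Finset.range d, n x :=
    Nat.mul_pos a2 (Finset.prod_pos fun x _ => hn _)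
  refine ⟨_, N0, fun X Z f ω B z a b c i s t u => ?_⟩
  obtain ⟨ft, e, Y, g, h', η, b1, b2, b3, rfl, tw, tr, u⟩ := u
  have b5 := tw.ctr
  have b6 := b5.of_comp s
  have := b5.2.2.1
  obtain ⟨p, hp⟩ := Cf.Fto.exists_pe (X := X.o) (Y := Y.o) g
  obtain ⟨r, rfl⟩ := Nat.exists_eq_add_of_le (b5.dim_le a b2)
  have f' : FanoType h' η := gd_fano b5 b6.2.2.1 a b2 b1 b b3 (fun q ε q0 ε0 =>
    let ⟨a', b', c', a0, b0, c0, k⟩ := (un _ r q ε q0 ε0).get
    ⟨a', b', c', a0, b0, c0, k X Y g tw Z h' _ e ω b6.2.2.1 a b2 b1 b ft rfl⟩) ft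
  obtain ⟨e, rfl⟩ : ∃ k, e = k + 1 := ⟨e - 1, (Nat.sub_add_cancel b1).symm⟩
  obtain ⟨Δ, c1, c2, c3, c4⟩ := Dp.dwg64 hε a1 a2 a3 X.o Y.o g p b5 hp (e + 1) ω η B b1 a b b3
    ((pair_iff _ _ ω B).1 c) (fun E => by
      by_cases z : B E = 0
      · exact ⟨0, (congrArg (_ * ·) z).trans (by simp)⟩
      · obtain ⟨k, hk⟩ := Br.den R (i E z) (hR _ (i E z)).1
        exact ⟨k, hk⟩) tr (ffd Y.o _ b2)
    (H r (by omega) X Y g tw Z h' _ _ ω b6.2.2.1 a b2 b1 b ft rfl p hp _ le_rfl)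
  have c1' := (pair_iff _ _ η Δ).2 c1
  refine (has_iff _ ω B _ z).2 (c4 Z.o h' z _ N0 (dvd_mul_right _ _)
    ((has_iff h' η Δ _ z).1 ((K e Y Z h' η Δ z b2 b3 c1' c2 b6 t (u p Δ hp f' ?_ c3)).of_dvd
      ((Finset.dvd_prod_of_mem n (Finset.mem_range.2 (by omega))).trans (dvd_mul_left _ _)))))
  exact ⟨c1'.1, c1'.2.1, fun W E k m φ m0 l => a3.trans_le (c1'.2.2 W E k m φ m0 l)⟩

/-- towers over a class -/
theorem onN_over' (J : ℕ → ℕ) (h : OnN C) :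
    OnN fun d X Z f ω B z => ∃ (e : ℕ) (T : Var) (a : X.X ⟶ T.X) (h : T.X ⟶ Z.X) (θ : T.Form e),
      dimension T.str = e ∧ 1 ≤ e ∧ θ.Nonzero ∧ a ≫ h = f ∧ Tower (J d) a ∧
      TrivialOver a ω B ∧ ∀ Δ, C e T Z h θ Δ z :=
  (on_tw J h).mono fun _ X Z _ _ _ _ ⟨ft, v, e, Y, g, k, η, b2, b1, b3, b4, b5, b7, b8⟩ =>
    ⟨ft, e, Y, g, k, η, b1, b2, b3, b4, b5, b7, fun p Δ hp f' c7 c8 => ⟨f',
      (nefOver_iff k _).2 (Cf.nef X.o Y.o g p b5.ctr hp Z.o k _ _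
        (Eb.logCan_fin (X := Y.o) b1 b2 b3 Δ) (fun y => c7.2.1 y trivial) c8
        (b4 ▸ (nefOver_iff _ _).1 v)), b8 Δ⟩⟩

/-- the same for classes which do not depend on the boundary -/
theorem onN_over (J : ℕ → ℕ) {C : ∀ (d : ℕ) (X Z : Var), (X.X ⟶ Z.X) → X.Form d → Pt Z.X → Prop}
    (h : OnN fun d X Z f ω _ z => C d X Z f ω z) :
    OnN fun d X Z f ω B z => ∃ (e : ℕ) (T : Var) (a : X.X ⟶ T.X) (h : T.X ⟶ Z.X) (θ : T.Form e),
      dimension T.str = e ∧ 1 ≤ e ∧ θ.Nonzero ∧ a ≫ h = f ∧ Tower (J d) a ∧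
      TrivialOver a ω B ∧ C e T Z h θ z :=
  (onN_over' J h).mono fun _ _ _ _ _ _ _ ⟨e, Y, g, h, η, b1, b2, b3, b4, b5, b6, u⟩ =>
    ⟨e, Y, g, h, η, b1, b2, b3, b4, b5, b6, fun _ => u⟩

/-- towers over a germ -/
theorem onN_at (J : ℕ → ℕ) {S : ℕ → ∀ Z : Var, Pt Z.X → Prop}
    (h : On fun d _ Z f ω B z => Crepant f ω B z ∧ S d Z z) : OnN fun d _ Z f ω B z =>
    ∃ e : ℕ, dimension Z.str = e ∧ 1 ≤ e ∧ Tower (J d) f ∧ TrivialOver f ω B ∧ S e Z z := by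
  refine (on_tw J h).mono fun _ X Z f ω B z ⟨ft, _, e, b1, b2, b3, b4, b5⟩ => ?_
  obtain ⟨m, η, h1, h2⟩ := exists_form Z
  obtain rfl : e = m := Nat.cast_injective (b1.symm.trans h1)
  exact ⟨ft, e, Z, f, 𝟙 _, η, b2, b1, h2, Category.comp_id _, b3, b4, fun _ Δ _ _ l _ =>
    ⟨⟨⟨_, Br.pb_id (X := Z.o)⟩, Br.loc_id (X := Z.o) ((pair_iff _ _ η Δ).1 l) z⟩, b5⟩⟩

/-- towers over quotients of complete intersections and over mild points -/
theorem onN_germ (J : ℕ → ℕ) : OnN fun d _ Z f ω B z =>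
    ∃ e : ℕ, dimension Z.str = e ∧ 1 ≤ e ∧ Tower (J d) f ∧ TrivialOver f ω B ∧
      (LciqOr (e = d ∧ SameCoeff f B.coeff 0) Z z ∨ 3 ≤ e ∧ MildCover e (e - 3) Z z) :=
  ((onN_at J (S := fun e W w => LciqReg W w ∨ 3 ≤ e ∧ MildCover e (e - 3) W w)
    ((Pu.on.or on_cdv).mono fun _ _ _ _ _ _ _ u =>
      u.2.imp (fun v => ⟨u.1, v⟩) fun v => ⟨v.1, u.1, v.2⟩)).or onN_lci0).mono
    fun _ _ _ _ _ _ _ ⟨e, a, b, c, t, u⟩ => by
      rcases u with u | u
      · rcases u.elim with v | ⟨⟨rfl, v⟩, w⟩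
        · exact .inl ⟨e, a, b, c, t, .inl v⟩
        · exact .inr ⟨a, t, v, w⟩
      · exact .inl ⟨e, a, b, c, t, .inr u⟩

/-- the union of the two, after an étale base change -/
theorem literalW (J : ℕ → ℕ)
    {C : ∀ (d : ℕ) (X Z : Var), (X.X ⟶ Z.X) → X.Form d → Pt Z.X → Prop}
    (h : OnN fun d X Z f ω _ z => C d X Z f ω z) :
    ∀ d : ℕ, 1 ≤ d → ∀ ε : ℝ, 0 < ε → ∀ R : Finset ℚ, (∀ r ∈ R, 0 ≤ r ∧ r ≤ 1) →
    ∃ n : ℕ, 1 ≤ n ∧ ∀ (X Z : Var) (f : X.X ⟶ Z.X) (ω : X.Form d) (B : X.QDiv)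
      (z : Pt Z.X), dimension X.str = d → ω.Nonzero → Pair (ε ≤ ·) (all X.X) ω B →
      (∀ y, B.coeff y ≠ 0 → B.coeff y ∈ R) → Contraction f → FanoType f ω →
      NefOver f (-logCan ω B) → z.Closed →
      EtLocal (fun Y W g (η : Y.Form d) D w =>
        (∃ (e : ℕ) (T : Var) (a : Y.X ⟶ T.X) (h : T.X ⟶ W.X) (θ : T.Form e),
          dimension T.str = e ∧ 1 ≤ e ∧ θ.Nonzero ∧ a ≫ h = g ∧ Tower (J d) a ∧
          TrivialOver a η D ∧ C e T W h θ w) ∨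
        ∃ e : ℕ, dimension W.str = e ∧ 1 ≤ e ∧ Tower (J d) g ∧ TrivialOver g η D ∧
          (LciqOr (e = d ∧ SameCoeff g D.coeff 0) W w ∨ 3 ≤ e ∧ MildCover e (e - 3) W w)) f B z →
      HasKltComplement f ω B n z := fun d hd ε hε R hR =>
  (((onN_over J h).or (onN_germ J)).et d hd ε hε R hR).imp
    fun _ H => ⟨H.1, fun X Z f ω B z a b c e s u v t w => H.2 X Z f ω B z a b c e s t ⟨u, v, w⟩⟩

/-- the old towers -/
theorem of_tower (t : Sl.Tower g) (J : ℕ) : Tower J g := by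
  induction t with
  | one a b => exact .one a b
  | comp _ _ a b => exact a.comp b
  | small p a b c _ i => exact .small p a b c i

/-- the geometric towers -/
theorem of_geo (t : GeoTower J g) : Tower (J + 1) g := by
  obtain ⟨c, X', Y', g', π, j, p, et, ov, bc, pe, ⟨v, hv⟩, t⟩ := t
  refine .base v c et ov bc.1 (fun a => ?_) (of_tower t J)
  obtain ⟨k, rfl⟩ := hv a
  have : Etale π := MorphismProperty.of_isPullback bc.1.flip et
  have e : π (genericPoint X'.X) = genericPoint X.X := by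
    refine IsGenericPoint.eq ?_ (genericPoint_spec X.X)
    have := (genericPoint_spec X'.X).image π.continuous
    rwa [Set.image_univ, (π.isOpenMap.isOpen_range.dense (Set.range_nonempty _)).closure_eq] at this
  have fl : IsField (X.X.presheaf.stalk (π (genericPoint X'.X))) :=
    e ▸ Field.toIsField X.X.functionField
  have su : ∀ z : X.K, ∃ s : St X.X ((generic X'.X).map π), toRat s = z :=
    (IsFractionRing.surjective_iff_isField (K := X.X.functionField)).2 fl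
  choose s hs using su
  exact ⟨fun l => s (k l), Finset.sum_congr rfl fun l _ => by rw [← pe, hs]⟩

end Vale.Agent.P283R.Tw
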