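import Vale.Agent.P283R.Dp.St
import Vale.Agent.P283R.To.Gs2

/-!
# P283R, block DP: places extend
-/

noncomputable section

namespace Vale.Agent.P283R.Dp

/-- **UP** -/
theorem up60 : UP := by
  intro k K _ _ _ _ _ _ d r _ hK w
  obtain ⟨s, hs⟩ := exists_isTranscendenceBasis k K
  obtain ⟨u, l, -⟩ := To.gauss_alg hK hs w
  exact ⟨u, l⟩

end Vale.Agent.P283R.Dp
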